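import Vale.Agent.P013.Rep

/-!
# Sieve pairs and Bonferroni blocks (Brun-Hooley)
-/

namespace Vale.Agent.P013

open Finset

/-- indicator that no element of `P` divides `x` -/
noncomputable def ind (P : Finset ℕ) (x : ℤ) : ℝ := if ∀ p ∈ P, ¬ ((p : ℤ) ∣ x) then 1 else 0

lemma ind_nonneg (P : Finset ℕ) (x : ℤ) : 0 ≤ ind P x := by
  unfold ind; split_ifs <;> norm_num

lemma ind_union (P P' : Finset ℕ) (x : ℤ) : ind (P ∪ P') x = ind P x * ind P' x := by
  unfold ind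
  by_cases h1 : ∀ p ∈ P, ¬ ((p : ℤ) ∣ x)
  · by_cases h2 : ∀ p ∈ P', ¬ ((p : ℤ) ∣ x)
    · have : ∀ p ∈ P ∪ P', ¬ ((p : ℤ) ∣ x) := by
        intro p hp
        rcases Finset.mem_union.1 hp with h | h
        · exact h1 p h
        · exact h2 p h
      rw [if_pos h1, if_pos h2, if_pos this]; norm_num
    · have : ¬ ∀ p ∈ P ∪ P', ¬ ((p : ℤ) ∣ x) := fun h =>
        h2 fun p hp => h p (Finset.mem_union_right _ hp)
      rw [if_pos h1, if_neg h2, if_neg this]; norm_num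
  · have : ¬ ∀ p ∈ P ∪ P', ¬ ((p : ℤ) ∣ x) := fun h =>
      h1 fun p hp => h p (Finset.mem_union_left _ hp)
    rw [if_neg h1, if_neg this]; norm_num

/-- A sieve pair for the set `P`: an upper and a lower bound function for `ind P`, both
represented with modulus `∏ P`. -/
def SP (P : Finset ℕ) (MY ML NY NL : ℝ) : Prop :=
  ∃ Y L : ℤ → ℝ, Rep (∏ p ∈ P, p) Y MY NY ∧ Rep (∏ p ∈ P, p) L ML NL ∧
    ∀ x, L x ≤ ind P x ∧ ind P x ≤ Y x

lemma prod_coprime_of_disjoint {P P' : Finset ℕ} (hP : ∀ p ∈ P, p.Prime) (hP' : ∀ p ∈ P', p.Prime)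
    (hd : Disjoint P P') : Nat.Coprime (∏ p ∈ P, p) (∏ p ∈ P', p) := by
  refine Nat.Coprime.prod_left fun p hp => Nat.Coprime.prod_right fun q hq => ?_
  refine (Nat.coprime_primes (hP p hp) (hP' q hq)).2 ?_
  rintro rfl
  exact (Finset.disjoint_left.1 hd hp) hq

lemma SP.mono {P : Finset ℕ} {MY ML NY NL NY' NL' : ℝ} (h : SP P MY ML NY NL) (h1 : NY ≤ NY')
    (h2 : NL ≤ NL') : SP P MY ML NY' NL' := by
  obtain ⟨Y, L, a, b, c⟩ := h
  exact ⟨Y, L, a.mono h1, b.mono h2, c⟩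

lemma SP.union {P P' : Finset ℕ} {MY ML NY NL MY' ML' NY' NL' : ℝ}
    (h : SP P MY ML NY NL) (h' : SP P' MY' ML' NY' NL')
    (hP : ∀ p ∈ P, p.Prime) (hP' : ∀ p ∈ P', p.Prime) (hd : Disjoint P P') :
    SP (P ∪ P') (MY * MY') (ML * MY' + MY * ML' - MY * MY') (NY * NY')
      (NL * NY' + NY * NL' + NY * NY') := by
  obtain ⟨Y, L, rY, rL, hb⟩ := h
  obtain ⟨Y', L', rY', rL', hb'⟩ := h'
  have hc := prod_coprime_of_disjoint hP hP' hd
  have hQ : ∏ p ∈ P ∪ P', p = (∏ p ∈ P, p) * ∏ p ∈ P', p := Finset.prod_union hd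
  refine ⟨fun x => Y x * Y' x, fun x => L x * Y' x + Y x * L' x - Y x * Y' x, ?_, ?_, ?_⟩
  · rw [hQ]; exact rY.mul rY' hc
  · rw [hQ]; exact ((rL.mul rY' hc).add (rY.mul rL' hc)).sub (rY.mul rY' hc)
  · intro x
    obtain ⟨a1, a2⟩ := hb x
    obtain ⟨b1, b2⟩ := hb' x
    have i1 := ind_nonneg P x
    have i2 := ind_nonneg P' x
    rw [ind_union]
    constructor
    · nlinarith [mul_nonneg (sub_nonneg.2 a2) (sub_nonneg.2 b2),
        mul_nonneg (sub_nonneg.2 a1) (le_trans i2 b2), mul_nonneg (le_trans i1 a2) (sub_nonneg.2 b1)]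
    · exact mul_le_mul a2 b2 i2 (le_trans i1 a2)

lemma prod_ne_zero_of_primes {P : Finset ℕ} (hP : ∀ p ∈ P, p.Prime) : (∏ p ∈ P, p) ≠ 0 :=
  Finset.prod_ne_zero_iff.2 fun p hp => (hP p hp).ne_zero

/-- If the lower density times the length beats the mass, every interval of that length contains
an integer free of prime factors from `P`. -/
lemma SP.exists_free {P : Finset ℕ} {MY ML NY NL : ℝ} (h : SP P MY ML NY NL)
    (hP : ∀ p ∈ P, p.Prime) (m : ℕ) (hm : NL < m * ML) (a : ℤ) :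
    ∃ x ∈ Ico a (a + m), ∀ p ∈ P, ¬ ((p : ℤ) ∣ x) := by
  obtain ⟨Y, L, -, rL, hb⟩ := h
  have h1 := rL.sum_Ico (prod_ne_zero_of_primes hP) a m
  have h2 : 0 < ∑ x ∈ Ico a (a + m), L x := by
    have := (abs_le.1 h1).1
    linarith
  have h3 : 0 < ∑ x ∈ Ico a (a + m), ind P x :=
    lt_of_lt_of_le h2 (Finset.sum_le_sum fun x _ => (hb x).1)
  by_contra hcon
  have : ∑ x ∈ Ico a (a + m), ind P x = 0 := by
    refine Finset.sum_eq_zero fun x hx => ?_
    unfold ind
    rw [if_neg]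
    intro hall
    exact hcon ⟨x, hx, hall⟩
  linarith

/-- the exact sieve for a single prime -/
lemma rep_ind_singleton (p : ℕ) : Rep p (ind {p}) (1 - 1 / (p : ℝ)) 2 := by
  have h := (Rep.const p 1).sub (Rep.single p p dvd_rfl 1)
  have h2 : (|(1 : ℝ)| + |(1 : ℝ)|) = 2 := by norm_num
  rw [h2] at h
  refine h.congr (fun x => ?_) rfl
  unfold ind dv
  by_cases hx : (p : ℤ) ∣ x
  · simp [hx]
  · simp [hx]

/-- the exact (Legendre) sieve -/
lemma rep_ind (P : Finset ℕ) (hP : ∀ p ∈ P, p.Prime) :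
    Rep (∏ p ∈ P, p) (ind P) (∏ p ∈ P, (1 - 1 / (p : ℝ))) (2 ^ P.card) := by
  classical
  induction P using Finset.induction_on with
  | empty =>
    have := Rep.const 1 1
    simp only [abs_one] at this
    simp only [Finset.prod_empty, Finset.card_empty, pow_zero]
    exact this.congr (fun x => by simp [ind]) rfl
  | insert q P hq ih =>
    have h1 := ih fun p hp => hP p (Finset.mem_insert_of_mem hp)
    have h2 := rep_ind_singleton q
    have hc : Nat.Coprime q (∏ p ∈ P, p) := by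
      refine Nat.Coprime.prod_right fun r hr => ?_
      refine (Nat.coprime_primes (hP q (Finset.mem_insert_self _ _))
        (hP r (Finset.mem_insert_of_mem hr))).2 ?_
      rintro rfl
      exact hq hr
    have h3 := h2.mul h1 hc
    rw [Finset.prod_insert hq, Finset.prod_insert hq, Finset.card_insert_of_notMem hq, pow_succ,
      mul_comm ((2 : ℝ) ^ P.card) 2]
    refine h3.congr (fun x => ?_) rfl
    rw [Finset.insert_eq, ind_union]

lemma SP.exact (P : Finset ℕ) (hP : ∀ p ∈ P, p.Prime) :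
    SP P (∏ p ∈ P, (1 - 1 / (p : ℝ))) (∏ p ∈ P, (1 - 1 / (p : ℝ))) (2 ^ P.card) (2 ^ P.card) :=
  ⟨ind P, ind P, rep_ind P hP, rep_ind P hP, fun _ => ⟨le_rfl, le_rfl⟩⟩

/-! ### Bonferroni blocks -/

/-- elementary symmetric sum of the reciprocals -/
noncomputable def esym (P : Finset ℕ) (r : ℕ) : ℝ :=
  ∑ D ∈ powersetCard r P, ∏ p ∈ D, ((p : ℝ))⁻¹

/-- the number of elements of `P` dividing `x` -/
def nu (P : Finset ℕ) (x : ℤ) : ℕ := (P.filter fun p : ℕ => (p : ℤ) ∣ x).card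

lemma ind_eq_nu (P : Finset ℕ) (x : ℤ) : ind P x = if nu P x = 0 then 1 else 0 := by
  unfold ind nu
  congr 1
  rw [Finset.card_eq_zero, Finset.filter_eq_empty_iff]

lemma dv_prod_eq {P D : Finset ℕ} (hP : ∀ p ∈ P, p.Prime) (hD : D ⊆ P) (x : ℤ) :
    dv (∏ p ∈ D, p) x = if D ⊆ P.filter (fun p : ℕ => (p : ℤ) ∣ x) then 1 else 0 := by
  unfold dv
  congr 1
  rw [eq_iff_iff]
  constructor
  · intro h p hp
    refine Finset.mem_filter.2 ⟨hD hp, ?_⟩
    refine dvd_trans ?_ h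
    exact_mod_cast Finset.dvd_prod_of_mem (fun p => p) hp
  · intro h
    rw [Int.natCast_dvd]
    refine Finset.prod_primes_dvd _ (fun p hp => (hP p (hD hp)).prime) fun p hp => ?_
    have := (Finset.mem_filter.1 (h hp)).2
    rwa [Int.natCast_dvd] at this

lemma sum_dv_powersetCard {P : Finset ℕ} (hP : ∀ p ∈ P, p.Prime) (i : ℕ) (x : ℤ) :
    ∑ D ∈ powersetCard i P, dv (∏ p ∈ D, p) x = ((nu P x).choose i : ℝ) := by
  have h1 : ∑ D ∈ powersetCard i P, dv (∏ p ∈ D, p) x =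
      ∑ D ∈ powersetCard i P, if D ⊆ P.filter (fun p : ℕ => (p : ℤ) ∣ x) then (1 : ℝ) else 0 :=
    Finset.sum_congr rfl fun D hD => dv_prod_eq hP (Finset.mem_powersetCard.1 hD).1 x
  rw [h1, ← Finset.sum_filter, Finset.sum_const, nsmul_eq_mul, mul_one]
  have h2 : (powersetCard i P).filter (fun D => D ⊆ P.filter (fun p : ℕ => (p : ℤ) ∣ x)) =
      powersetCard i (P.filter fun p : ℕ => (p : ℤ) ∣ x) := by
    ext D
    simp only [Finset.mem_filter, Finset.mem_powersetCard]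
    constructor
    · rintro ⟨⟨_, h⟩, h'⟩; exact ⟨h', h⟩
    · rintro ⟨h', h⟩; exact ⟨⟨h'.trans (Finset.filter_subset _ _), h⟩, h'⟩
  rw [h2, Finset.card_powersetCard]
  rfl

lemma rep_level {P : Finset ℕ} (i : ℕ) :
    Rep (∏ p ∈ P, p) (fun x => ∑ D ∈ powersetCard i P, dv (∏ p ∈ D, p) x) (esym P i)
      (P.card.choose i) := by
  have h := Rep.sum (Q := ∏ p ∈ P, p) (powersetCard i P) (fun D x => 1 * dv (∏ p ∈ D, p) x)
    (fun D => 1 / ((∏ p ∈ D, p : ℕ) : ℝ)) (fun _ => |(1 : ℝ)|) fun D hD =>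
      Rep.single _ _ (Finset.prod_dvd_prod_of_subset _ _ _ (Finset.mem_powersetCard.1 hD).1) 1
  have e1 : ∑ D ∈ powersetCard i P, |(1 : ℝ)| = (P.card.choose i : ℝ) := by
    simp [Finset.card_powersetCard]
  rw [e1] at h
  refine h.congr (fun x => by simp) ?_
  unfold esym
  refine Finset.sum_congr rfl fun D _ => ?_
  rw [Nat.cast_prod, one_div, Finset.prod_inv_distrib]

/-- truncated alternating sum of the `esym` -/
noncomputable def trunc (P : Finset ℕ) (b : ℕ) : ℝ := ∑ i ∈ range (b + 1), (-1 : ℝ) ^ i * esym P i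

/-- number of subsets of size at most `b` -/
def cntLe (n b : ℕ) : ℕ := ∑ i ∈ range (b + 1), n.choose i

lemma bonferroni_real (ν b : ℕ) (hb : Even b) :
    ((if ν = 0 then 1 else 0 : ℝ) ≤ ∑ i ∈ range (b + 1), (-1 : ℝ) ^ i * (ν.choose i : ℝ)) ∧
    (∑ i ∈ range (b + 1), (-1 : ℝ) ^ i * (ν.choose i : ℝ)) - (ν.choose (b + 1) : ℝ) ≤
      (if ν = 0 then 1 else 0 : ℝ) := by
  rcases Nat.eq_zero_or_pos ν with rfl | hν
  · have : ∑ i ∈ range (b + 1), (-1 : ℝ) ^ i * ((0 : ℕ).choose i : ℝ) = 1 := by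
      rw [Finset.sum_range_succ']
      simp
    rw [this]
    simp
  · obtain ⟨n, rfl⟩ : ∃ n, ν = n + 1 := ⟨ν - 1, by omega⟩
    have h := Int.alternating_sum_range_choose_eq_choose (n := n) (m := b)
    have h' : ∑ i ∈ range (b + 1), (-1 : ℝ) ^ i * ((n + 1).choose i : ℝ) = (n.choose b : ℝ) := by
      have := congrArg (fun z : ℤ => (z : ℝ)) h
      simp only [Int.cast_sum, Int.cast_mul, Int.cast_pow, Int.cast_neg, Int.cast_one,
        Int.cast_natCast, hb.neg_one_pow, one_mul] at this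
      exact this
    rw [h']
    simp only [Nat.succ_ne_zero, if_false]
    constructor
    · positivity
    · rw [Nat.choose_succ_succ]
      push_cast
      have : (0 : ℝ) ≤ (n.choose (b + 1) : ℝ) := by positivity
      linarith

/-- the Bonferroni block of even level `b` -/
lemma SP.block (P : Finset ℕ) (hP : ∀ p ∈ P, p.Prime) (b : ℕ) (hb : Even b) :
    SP P (trunc P b) (trunc P b - esym P (b + 1)) (cntLe P.card b)
      (cntLe P.card b + P.card.choose (b + 1)) := by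
  have hY : Rep (∏ p ∈ P, p)
      (fun x => ∑ i ∈ range (b + 1), (-1 : ℝ) ^ i * ∑ D ∈ powersetCard i P, dv (∏ p ∈ D, p) x)
      (trunc P b) (cntLe P.card b) := by
    have h := Rep.sum (Q := ∏ p ∈ P, p) (range (b + 1))
      (fun i x => (-1 : ℝ) ^ i * ∑ D ∈ powersetCard i P, dv (∏ p ∈ D, p) x)
      (fun i => (-1 : ℝ) ^ i * esym P i) (fun i => |(-1 : ℝ) ^ i| * (P.card.choose i : ℝ))
      fun i _ => (rep_level (P := P) i).smul _
    have e : ∑ i ∈ range (b + 1), |(-1 : ℝ) ^ i| * (P.card.choose i : ℝ) = (cntLe P.card b : ℝ) := by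
      unfold cntLe
      push_cast
      refine Finset.sum_congr rfl fun i _ => ?_
      simp
    rw [e] at h
    exact h
  refine ⟨_, _, hY, hY.sub (rep_level (P := P) (b + 1)), fun x => ?_⟩
  simp only [sum_dv_powersetCard hP]
  rw [ind_eq_nu]
  obtain ⟨h1, h2⟩ := bonferroni_real (nu P x) b hb
  exact ⟨h2, h1⟩

end Vale.Agent.P013
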