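import Vale.Agent.P013.Block

/-!
# Estimates for the main terms of a Bonferroni block
-/

namespace Vale.Agent.P013

open Finset

lemma esym_zero (P : Finset ℕ) : esym P 0 = 1 := by
  simp [esym]

lemma esym_empty_succ (r : ℕ) : esym ∅ (r + 1) = 0 := by
  unfold esym
  rw [Finset.powersetCard_eq_empty.2 (by simp)]
  simp

lemma esym_nonneg (P : Finset ℕ) (r : ℕ) : 0 ≤ esym P r :=
  Finset.sum_nonneg fun D _ => Finset.prod_nonneg fun p _ => by positivity

lemma esym_insert {P : Finset ℕ} {q : ℕ} (hq : q ∉ P) (r : ℕ) :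
    esym (insert q P) (r + 1) = esym P (r + 1) + (q : ℝ)⁻¹ * esym P r := by
  unfold esym
  rw [Finset.powersetCard_succ_insert hq, Finset.sum_union, Finset.sum_image, Finset.mul_sum]
  · congr 1
    refine Finset.sum_congr rfl fun D hD => ?_
    have : q ∉ D := fun h => hq ((Finset.mem_powersetCard.1 hD).1 h)
    rw [Finset.prod_insert this]
  · intro D hD D' hD' h
    have h1 : q ∉ D := fun h => hq ((Finset.mem_powersetCard.1 hD).1 h)
    have h2 : q ∉ D' := fun h => hq ((Finset.mem_powersetCard.1 hD').1 h)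
    have := congrArg (fun s => Finset.erase s q) h
    simpa [Finset.erase_insert h1, Finset.erase_insert h2] using this
  · rw [Finset.disjoint_left]
    intro D hD hD'
    obtain ⟨D0, _, rfl⟩ := Finset.mem_image.1 hD'
    exact hq ((Finset.mem_powersetCard.1 hD).1 (Finset.mem_insert_self _ _))

lemma pow_succ_add_le (s a : ℝ) (hs : 0 ≤ s) (ha : 0 ≤ a) (r : ℕ) :
    s ^ (r + 1) + (r + 1) * a * s ^ r ≤ (s + a) ^ (r + 1) := by
  induction r with
  | zero => simp
  | succ r ih =>
    have h1 : (s + a) ^ (r + 1 + 1) = (s + a) ^ (r + 1) * (s + a) := pow_succ _ _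
    rw [h1]
    have h2 : (s ^ (r + 1) + (r + 1) * a * s ^ r) * (s + a) ≤ (s + a) ^ (r + 1) * (s + a) :=
      mul_le_mul_of_nonneg_right ih (by positivity)
    refine le_trans ?_ h2
    have h3 : 0 ≤ (r + 1 : ℝ) * a * s ^ r * a := by positivity
    have h4 : (s ^ (r + 1) + (r + 1) * a * s ^ r) * (s + a) =
        s ^ (r + 1 + 1) + ((r + 1 : ℕ) + 1 : ℝ) * a * s ^ (r + 1) + (r + 1 : ℝ) * a * s ^ r * a := by
      push_cast
      ring
    rw [h4]
    linarith

/-- `e_r ≤ σ ^ r / r!` -/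
lemma esym_le (P : Finset ℕ) (r : ℕ) :
    esym P r ≤ (∑ p ∈ P, (p : ℝ)⁻¹) ^ r / (r.factorial : ℝ) := by
  classical
  induction P using Finset.induction_on generalizing r with
  | empty =>
    cases r with
    | zero => simp [esym_zero]
    | succ r => simp [esym_empty_succ]
  | insert q P hq ih =>
    cases r with
    | zero => simp [esym_zero]
    | succ r =>
      rw [esym_insert hq, Finset.sum_insert hq]
      set s := ∑ p ∈ P, (p : ℝ)⁻¹ with hs
      have hs0 : 0 ≤ s := Finset.sum_nonneg fun p _ => by positivity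
      have ha0 : 0 ≤ (q : ℝ)⁻¹ := by positivity
      have h1 := ih (r + 1)
      have h2 := ih r
      have h3 := pow_succ_add_le s (q : ℝ)⁻¹ hs0 ha0 r
      have hf : ((r + 1).factorial : ℝ) = (r + 1) * (r.factorial : ℝ) := by
        rw [Nat.factorial_succ]; push_cast; ring
      have hfpos : (0 : ℝ) < (r.factorial : ℝ) := by positivity
      calc esym P (r + 1) + (q : ℝ)⁻¹ * esym P r
          ≤ s ^ (r + 1) / ((r + 1).factorial : ℝ) + (q : ℝ)⁻¹ * (s ^ r / (r.factorial : ℝ)) := by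
            gcongr
        _ = (s ^ (r + 1) + (r + 1) * (q : ℝ)⁻¹ * s ^ r) / ((r + 1).factorial : ℝ) := by
            rw [hf]; field_simp
        _ ≤ ((q : ℝ)⁻¹ + s) ^ (r + 1) / ((r + 1).factorial : ℝ) := by
            rw [add_comm (q : ℝ)⁻¹ s]
            gcongr

lemma trunc_zero (P : Finset ℕ) : trunc P 0 = 1 := by
  simp [trunc, esym_zero]

lemma trunc_empty (b : ℕ) : trunc ∅ b = 1 := by
  unfold trunc
  rw [Finset.sum_range_succ']
  simp [esym_zero, esym_empty_succ]

lemma trunc_insert {P : Finset ℕ} {q : ℕ} (hq : q ∉ P) (b : ℕ) :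
    trunc (insert q P) (b + 1) = trunc P (b + 1) - (q : ℝ)⁻¹ * trunc P b := by
  unfold trunc
  rw [Finset.sum_range_succ' _ (b + 1), Finset.sum_range_succ' _ (b + 1), Finset.mul_sum]
  simp only [esym_zero, esym_insert hq]
  have : ∑ i ∈ range (b + 1), (-1 : ℝ) ^ (i + 1) * (esym P (i + 1) + (q : ℝ)⁻¹ * esym P i) =
      ∑ i ∈ range (b + 1), (-1 : ℝ) ^ (i + 1) * esym P (i + 1) -
        ∑ i ∈ range (b + 1), (q : ℝ)⁻¹ * ((-1 : ℝ) ^ i * esym P i) := by
    rw [← Finset.sum_sub_distrib]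
    refine Finset.sum_congr rfl fun i _ => ?_
    rw [pow_succ]; ring
  rw [this]; ring

/-- the sifting density -/
noncomputable def dens (P : Finset ℕ) : ℝ := ∏ p ∈ P, (1 - 1 / (p : ℝ))

lemma one_sub_mem {p : ℕ} (hp : 1 ≤ p) : 0 ≤ 1 - 1 / (p : ℝ) ∧ 1 - 1 / (p : ℝ) ≤ 1 := by
  have h1 : (1 : ℝ) ≤ p := by exact_mod_cast hp
  have h2 : 1 / (p : ℝ) ≤ 1 := by
    rw [div_le_one (by linarith)]; exact h1
  have h3 : 0 ≤ 1 / (p : ℝ) := by positivity
  constructor <;> linarith

lemma dens_nonneg {P : Finset ℕ} (hP : ∀ p ∈ P, 1 ≤ p) : 0 ≤ dens P :=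
  Finset.prod_nonneg fun p hp => (one_sub_mem (hP p hp)).1

lemma dens_le_one {P : Finset ℕ} (hP : ∀ p ∈ P, 1 ≤ p) : dens P ≤ 1 :=
  Finset.prod_le_one (fun p hp => (one_sub_mem (hP p hp)).1) fun p hp => (one_sub_mem (hP p hp)).2

/-- Bonferroni inequalities for the densities. -/
lemma trunc_bonferroni (P : Finset ℕ) (hP : ∀ p ∈ P, 1 ≤ p) (b : ℕ) :
    (Even b → dens P ≤ trunc P b) ∧ (Odd b → trunc P b ≤ dens P) := by
  classical
  induction P using Finset.induction_on generalizing b with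
  | empty => simp [trunc_empty, dens]
  | insert q P hq ih =>
    have hP' : ∀ p ∈ P, 1 ≤ p := fun p hp => hP p (Finset.mem_insert_of_mem hp)
    have hq1 := one_sub_mem (hP q (Finset.mem_insert_self _ _))
    have hd : dens (insert q P) = dens P - (q : ℝ)⁻¹ * dens P := by
      unfold dens
      rw [Finset.prod_insert hq]; ring
    have hq0 : 0 ≤ (q : ℝ)⁻¹ := by positivity
    cases b with
    | zero =>
      refine ⟨fun _ => ?_, fun h => by simp at h⟩
      rw [trunc_zero]
      exact dens_le_one hP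
    | succ b =>
      rw [trunc_insert hq, hd]
      constructor
      · intro hb
        have hb' : Odd b := by
          rcases Nat.even_or_odd b with h | h
          · exact absurd hb (by simpa [Nat.even_add_one] using h)
          · exact h
        have h1 := (ih hP' (b + 1)).1 hb
        have h2 := (ih hP' b).2 hb'
        have := mul_le_mul_of_nonneg_left h2 hq0
        linarith
      · intro hb
        have hb' : Even b := by
          rcases Nat.even_or_odd b with h | h
          · exact h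
          · exact absurd hb (by simpa [Nat.odd_add_one] using h)
        have h1 := (ih hP' (b + 1)).2 hb
        have h2 := (ih hP' b).1 hb'
        have := mul_le_mul_of_nonneg_left h2 hq0
        linarith

/-- lower bound for the sifting density when all elements are at least `w ≥ 2` -/
lemma dens_ge_exp (P : Finset ℕ) (w : ℕ) (hw : 2 ≤ w) (hP : ∀ p ∈ P, w ≤ p) :
    Real.exp (-((w : ℝ) / (w - 1) * ∑ p ∈ P, (p : ℝ)⁻¹)) ≤ dens P := by
  unfold dens
  rw [Finset.mul_sum, ← Finset.sum_neg_distrib, Real.exp_sum]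
  refine Finset.prod_le_prod (fun p _ => (Real.exp_pos _).le) fun p hp => ?_
  have hwp : (w : ℝ) ≤ p := by exact_mod_cast hP p hp
  have hw2 : (2 : ℝ) ≤ w := by exact_mod_cast hw
  have hp1 : (0 : ℝ) < (p : ℝ) - 1 := by linarith
  have hp0 : (0 : ℝ) < p := by linarith
  -- `exp (-(1/(p-1))) ≤ 1 - 1/p`
  have h1 : (w : ℝ) / (w - 1) * (p : ℝ)⁻¹ ≥ 1 / ((p : ℝ) - 1) → True := fun _ => trivial
  have h2 : 1 / ((p : ℝ) - 1) ≤ (w : ℝ) / (w - 1) * (p : ℝ)⁻¹ := by
    rw [div_mul_eq_mul_div, div_le_div_iff₀ hp1 (by linarith)]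
    field_simp
    nlinarith
  have h3 : Real.exp (-((w : ℝ) / (w - 1) * (p : ℝ)⁻¹)) ≤ Real.exp (-(1 / ((p : ℝ) - 1))) :=
    Real.exp_le_exp.2 (by linarith)
  refine h3.trans ?_
  rw [Real.exp_neg]
  have h4 : 1 / ((p : ℝ) - 1) + 1 ≤ Real.exp (1 / ((p : ℝ) - 1)) := Real.add_one_le_exp _
  have h5 : 1 / ((p : ℝ) - 1) + 1 = (p : ℝ) / (p - 1) := by field_simp; ring
  rw [h5] at h4
  have h6 : (Real.exp (1 / ((p : ℝ) - 1)))⁻¹ ≤ ((p : ℝ) / (p - 1))⁻¹ :=
    inv_anti₀ (by positivity) h4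
  refine h6.trans (le_of_eq ?_)
  field_simp

lemma cntLe_le_pow (n b : ℕ) : cntLe n b ≤ (n + 1) ^ b := by
  induction b with
  | zero => simp [cntLe]
  | succ b ih =>
    have h1 : cntLe n (b + 1) = cntLe n b + n.choose (b + 1) := by
      unfold cntLe; rw [Finset.sum_range_succ]
    have h2 : n.choose (b + 1) ≤ n ^ (b + 1) := Nat.choose_le_pow n (b + 1)
    have h3 : n ^ (b + 1) ≤ n * (n + 1) ^ b := by
      rw [pow_succ, mul_comm]
      exact Nat.mul_le_mul_left _ (Nat.pow_le_pow_left (Nat.le_succ n) b)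
    calc cntLe n (b + 1) ≤ (n + 1) ^ b + n * (n + 1) ^ b := by rw [h1]; omega
      _ = (n + 1) ^ (b + 1) := by ring

end Vale.Agent.P013
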