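import Mathlib

/-!
# An explicit Mertens-type upper bound for sums of reciprocals of primes over a range
-/

namespace Vale.Agent.P013

open Finset

/-- the von Mangoldt function, abbreviated -/
noncomputable abbrev vM (d : ℕ) : ℝ := ArithmeticFunction.vonMangoldt d

lemma vM_nonneg (d : ℕ) : 0 ≤ vM d := ArithmeticFunction.vonMangoldt_nonneg

/-- `B n = ∑_{d ≤ n} Λ(d) / d` -/
noncomputable def Bsum (n : ℕ) : ℝ := ∑ d ∈ Ioc 0 n, vM d / d

lemma log_factorial_eq_sum_log (n : ℕ) : Real.log (n.factorial : ℝ) = ∑ j ∈ Ioc 0 n, Real.log j := by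
  induction n with
  | zero => simp
  | succ n ih =>
    rw [Finset.sum_Ioc_succ_top (Nat.zero_le n), ← ih, Nat.factorial_succ, Nat.cast_mul,
      Real.log_mul (by positivity) (by positivity), add_comm]

lemma log_factorial_eq (n : ℕ) :
    Real.log (n.factorial : ℝ) = ∑ d ∈ Ioc 0 n, vM d * ((n / d : ℕ) : ℝ) := by
  rw [log_factorial_eq_sum_log]
  have h := ArithmeticFunction.sum_Ioc_mul_zeta_eq_sum ArithmeticFunction.vonMangoldt n
  rw [ArithmeticFunction.vonMangoldt_mul_zeta] at h
  simpa [ArithmeticFunction.log_apply] using h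

lemma log_factorial_le_mul_Bsum (n : ℕ) : Real.log (n.factorial : ℝ) ≤ n * Bsum n := by
  rw [log_factorial_eq, Bsum, Finset.mul_sum]
  refine Finset.sum_le_sum fun d _ => ?_
  have h1 : ((n / d : ℕ) : ℝ) ≤ (n : ℝ) / d := Nat.cast_div_le
  calc vM d * ((n / d : ℕ) : ℝ) ≤ vM d * ((n : ℝ) / d) :=
        mul_le_mul_of_nonneg_left h1 (vM_nonneg d)
    _ = n * (vM d / d) := by ring

lemma mul_Bsum_sub_psi_le (n : ℕ) :
    n * Bsum n - Chebyshev.psi n ≤ Real.log (n.factorial : ℝ) := by
  rw [log_factorial_eq, Bsum, Finset.mul_sum, Chebyshev.psi, Nat.floor_natCast,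
    ← Finset.sum_sub_distrib]
  refine Finset.sum_le_sum fun d hd => ?_
  have hd0 : 0 < d := (Finset.mem_Ioc.1 hd).1
  have hd0' : (0 : ℝ) < d := by exact_mod_cast hd0
  have h1 : (n : ℝ) / d - 1 ≤ ((n / d : ℕ) : ℝ) := by
    have h2 : n < d * (n / d + 1) := by
      have := Nat.div_add_mod n d
      have h3 := Nat.mod_lt n hd0
      nlinarith
    have h4 : (n : ℝ) < d * (((n / d : ℕ) : ℝ) + 1) := by exact_mod_cast h2
    rw [sub_le_iff_le_add, div_le_iff₀ hd0']
    linarith
  calc n * (vM d / d) - vM d = vM d * ((n : ℝ) / d - 1) := by ring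
    _ ≤ vM d * ((n / d : ℕ) : ℝ) := mul_le_mul_of_nonneg_left h1 (vM_nonneg d)

lemma log_factorial_ge (n : ℕ) (hn : 1 ≤ n) :
    n * Real.log n - n ≤ Real.log (n.factorial : ℝ) := by
  have h := Stirling.le_log_factorial_stirling (n := n) (by omega)
  have h1 : 0 ≤ Real.log n := Real.log_nonneg (by exact_mod_cast hn)
  have h2 : 0 ≤ Real.log (2 * Real.pi) := Real.log_nonneg (by nlinarith [Real.pi_gt_three])
  linarith

lemma log_factorial_le (n : ℕ) (hn : 1 ≤ n) :
    Real.log (n.factorial : ℝ) ≤ n * Real.log n - n + 1 + Real.log n / 2 := by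
  obtain ⟨m, rfl⟩ : ∃ m, n = m + 1 := ⟨n - 1, by omega⟩
  have h := Stirling.log_stirlingSeq'_antitone (Nat.zero_le m)
  simp only [Function.comp, Nat.succ_eq_add_one, zero_add] at h
  rw [Stirling.log_stirlingSeq_formula, Stirling.stirlingSeq_one] at h
  have hpos : (0 : ℝ) < ((m + 1 : ℕ) : ℝ) := by positivity
  have e1 : Real.log (Real.exp 1 / √2) = 1 - Real.log 2 / 2 := by
    rw [Real.log_div (by positivity) (by positivity), Real.log_exp, Real.log_sqrt (by norm_num)]
  have e2 : Real.log (((m + 1 : ℕ) : ℝ) / Real.exp 1) = Real.log ((m + 1 : ℕ) : ℝ) - 1 := by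
    rw [Real.log_div hpos.ne' (by positivity), Real.log_exp]
  have e3 : Real.log (2 * ((m + 1 : ℕ) : ℝ)) = Real.log 2 + Real.log ((m + 1 : ℕ) : ℝ) :=
    Real.log_mul (by norm_num) hpos.ne'
  rw [e1, e2, e3] at h
  linarith

/-- the oscillation bound behind Mertens' first theorem -/
lemma Bsum_sub_le (N n : ℕ) (hN : 1 ≤ N) (hn : 1 ≤ n) :
    Bsum n - Bsum N ≤ Real.log n - Real.log N +
      (Chebyshev.psi n / n + (1 + Real.log n / 2) / n) := by
  have hN' : (0 : ℝ) < N := by exact_mod_cast hN
  have hn' : (0 : ℝ) < n := by exact_mod_cast hn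
  have h1 : Real.log N - 1 ≤ Bsum N := by
    have := (log_factorial_ge N hN).trans (log_factorial_le_mul_Bsum N)
    have h2 : (N : ℝ) * (Real.log N - 1) ≤ N * Bsum N := by linarith
    exact le_of_mul_le_mul_left h2 hN'
  have h2 : Bsum n ≤ Real.log n - 1 + (Chebyshev.psi n / n + (1 + Real.log n / 2) / n) := by
    have := (mul_Bsum_sub_psi_le n).trans (log_factorial_le n hn)
    have h3 : (n : ℝ) * Bsum n ≤
        n * (Real.log n - 1 + (Chebyshev.psi n / n + (1 + Real.log n / 2) / n)) := by
      have : (n : ℝ) * (Real.log n - 1 + (Chebyshev.psi n / n + (1 + Real.log n / 2) / n)) =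
          n * Real.log n - n + Chebyshev.psi n + (1 + Real.log n / 2) := by
        field_simp
        ring
      rw [this]; linarith
    exact le_of_mul_le_mul_left h3 hn'
  linarith

/-- Abel summation step, in inequality form. -/
lemma abel_bound (N : ℕ) (hN : 2 ≤ N) (C : ℝ)
    (hC : ∀ n, N ≤ n → Bsum n - Bsum N ≤ Real.log n - Real.log N + C) (z : ℕ) (hz : N ≤ z) :
    ∑ d ∈ Ioc N z, vM d / d / Real.log d ≤
      Real.log (Real.log z) - Real.log (Real.log N) + C / Real.log N := by
  have key : ∀ z, N ≤ z → ∑ d ∈ Ioc N z, vM d / d / Real.log d ≤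
      Real.log (Real.log z) - Real.log (Real.log N) + C / Real.log N -
        (Real.log z - Real.log N + C - (Bsum z - Bsum N)) / Real.log z := by
    intro z hz
    induction z, hz using Nat.le_induction with
    | base => simp
    | succ z hz ih =>
      rw [Finset.sum_Ioc_succ_top hz]
      have hz2 : (2 : ℝ) ≤ z := by exact_mod_cast hN.trans hz
      have hlz : 0 < Real.log z := Real.log_pos (by linarith)
      have hz1 : (z : ℝ) < ((z + 1 : ℕ) : ℝ) := by push_cast; linarith
      have hlz1 : Real.log z < Real.log ((z + 1 : ℕ) : ℝ) := Real.log_lt_log (by linarith) hz1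
      have hlz1' : 0 < Real.log ((z + 1 : ℕ) : ℝ) := hlz.trans hlz1
      have hB : Bsum (z + 1) = Bsum z + vM (z + 1) / ((z + 1 : ℕ) : ℝ) := by
        unfold Bsum
        rw [Finset.sum_Ioc_succ_top (Nat.zero_le z)]
      set u := Real.log ((z + 1 : ℕ) : ℝ) with hu
      set v := Real.log (z : ℝ) with hv
      set a := vM (z + 1) / ((z + 1 : ℕ) : ℝ) with ha
      have hs : 0 ≤ v - Real.log N + C - (Bsum z - Bsum N) := by
        have := hC z hz
        linarith
      set s := v - Real.log N + C - (Bsum z - Bsum N) with hsdef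
      -- `log u - log v ≥ (u - v) / u`
      have hlog : (u - v) / u ≤ Real.log u - Real.log v := by
        have h1 := Real.one_sub_inv_le_log_of_pos (x := u / v) (by positivity)
        rw [Real.log_div hlz1'.ne' hlz.ne', inv_div] at h1
        have : (u - v) / u = 1 - v / u := by field_simp
        rw [this]; exact h1
      have hsz : s / u ≤ s / v := div_le_div_of_nonneg_left hs hlz hlz1.le
      have e1 : (u - Real.log N + C - (Bsum (z + 1) - Bsum N)) / u = s / u + (u - v) / u - a / u := by
        rw [hB, hsdef]; field_simp; ring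
      rw [e1]
      linarith
  have h := key z hz
  have hz2 : (2 : ℝ) ≤ z := by exact_mod_cast hN.trans hz
  have hlz : 0 < Real.log z := Real.log_pos (by linarith)
  have : 0 ≤ (Real.log z - Real.log N + C - (Bsum z - Bsum N)) / Real.log z :=
    div_nonneg (by have := hC z hz; linarith) hlz.le
  linarith

/-- reciprocals of primes in `(N, z]` -/
lemma sum_inv_primes_le (N : ℕ) (hN : 2 ≤ N) (C : ℝ)
    (hC : ∀ n, N ≤ n → Bsum n - Bsum N ≤ Real.log n - Real.log N + C) (z : ℕ) (hz : N ≤ z) :
    ∑ p ∈ (Ioc N z).filter Nat.Prime, ((p : ℝ))⁻¹ ≤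
      Real.log (Real.log z) - Real.log (Real.log N) + C / Real.log N := by
  refine le_trans ?_ (abel_bound N hN C hC z hz)
  rw [Finset.sum_filter]
  refine Finset.sum_le_sum fun d hd => ?_
  have hd2 : 2 < d := lt_of_le_of_lt hN (Finset.mem_Ioc.1 hd).1
  have hd2' : (2 : ℝ) < d := by exact_mod_cast hd2
  have hl : 0 < Real.log d := Real.log_pos (by linarith)
  split_ifs with hp
  · have : vM d = Real.log d := ArithmeticFunction.vonMangoldt_apply_prime hp
    rw [this]
    apply le_of_eq
    field_simp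
  · have := vM_nonneg d
    positivity

end Vale.Agent.P013
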