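import Vale.Agent.P013.Rough

/-!
# Jacobsthal's function for moduli with bounded reciprocal sum of prime factors
-/

namespace Vale.Agent.P013

open Finset

lemma esym_one (P : Finset ℕ) : esym P 1 = ∑ p ∈ P, ((p : ℝ))⁻¹ := by
  classical
  induction P using Finset.induction_on with
  | empty => simpa using esym_empty_succ 0
  | insert q P hq ih =>
    rw [esym_insert hq 0, zero_add, ih, esym_zero, Finset.sum_insert hq]
    ring

lemma esym_two (P : Finset ℕ) :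
    esym P 2 = ((∑ p ∈ P, ((p : ℝ))⁻¹) ^ 2 - ∑ p ∈ P, ((p : ℝ))⁻¹ ^ 2) / 2 := by
  classical
  induction P using Finset.induction_on with
  | empty => simpa using esym_empty_succ 1
  | insert q P hq ih =>
    rw [esym_insert hq 1, ih, esym_one, Finset.sum_insert hq, Finset.sum_insert hq]
    ring

lemma trunc_two (P : Finset ℕ) : trunc P 2 = 1 - esym P 1 + esym P 2 := by
  unfold trunc
  rw [Finset.sum_range_succ, Finset.sum_range_succ, Finset.sum_range_one, esym_zero]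
  ring

/-- lower bound for the level-two truncation when all elements are at least `w` -/
lemma trunc_two_ge (P : Finset ℕ) (w : ℕ) (hw : 0 < w) (hP : ∀ p ∈ P, w ≤ p) :
    1 - (∑ p ∈ P, ((p : ℝ))⁻¹) + (∑ p ∈ P, ((p : ℝ))⁻¹) ^ 2 / 2 -
      (∑ p ∈ P, ((p : ℝ))⁻¹) / (2 * w) ≤ trunc P 2 := by
  rw [trunc_two, esym_one, esym_two]
  have hw0 : (0 : ℝ) < w := by exact_mod_cast hw
  have h1 : ∑ p ∈ P, ((p : ℝ))⁻¹ ^ 2 ≤ (∑ p ∈ P, ((p : ℝ))⁻¹) / w := by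
    rw [Finset.sum_div]
    refine Finset.sum_le_sum fun p hp => ?_
    have hwp : (w : ℝ) ≤ p := by exact_mod_cast hP p hp
    have hp0 : (0 : ℝ) < p := by linarith
    rw [sq, div_eq_mul_inv]
    exact mul_le_mul_of_nonneg_left (inv_anti₀ hw0 hwp) (by positivity)
  have h2 : (∑ p ∈ P, ((p : ℝ))⁻¹) / (2 * w) = (∑ p ∈ P, ((p : ℝ))⁻¹) / w / 2 := by
    field_simp
  rw [h2]
  linarith

/-- the polynomial inequality behind the two-block main term -/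
lemma main_term_pos (s1 s2 U E : ℝ) (h1 : 0 ≤ s1) (h2 : 0 ≤ s2) (ht : s1 ≤ 0.925)
    (hsum : s1 + s2 ≤ 1.5) (hU : 1 - s2 + s2 ^ 2 / 2 - 0.00074 ≤ U) (hE : E ≤ s2 ^ 3 / 6) :
    0.01 ≤ U * (1 - s1) - E := by
  have hU0 : 0 ≤ 1 - s2 + s2 ^ 2 / 2 - 0.00074 := by nlinarith [sq_nonneg (s2 - 1)]
  have hs1 : 0 ≤ 1 - s1 := by linarith
  have hstep : (1 - s2 + s2 ^ 2 / 2 - 0.00074) * (1 - s1) - s2 ^ 3 / 6 ≤ U * (1 - s1) - E := by
    have := mul_le_mul_of_nonneg_right hU hs1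
    linarith
  refine le_trans ?_ hstep
  rcases le_total s2 0.575 with hc | hc
  · have h3 : (1 - s2 + s2 ^ 2 / 2 - 0.00074) * 0.075 ≤
        (1 - s2 + s2 ^ 2 / 2 - 0.00074) * (1 - s1) :=
      mul_le_mul_of_nonneg_left (by linarith) hU0
    have h4 : 0.01 ≤ (1 - s2 + s2 ^ 2 / 2 - 0.00074) * 0.075 - s2 ^ 3 / 6 := by
      nlinarith [mul_nonneg h2 (sub_nonneg.2 hc), mul_nonneg (mul_nonneg h2 h2) (sub_nonneg.2 hc),
        mul_nonneg (sub_nonneg.2 hc) (sub_nonneg.2 hc)]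
    linarith
  · have h3 : (1 - s2 + s2 ^ 2 / 2 - 0.00074) * (s2 - 0.5) ≤
        (1 - s2 + s2 ^ 2 / 2 - 0.00074) * (1 - s1) :=
      mul_le_mul_of_nonneg_left (by linarith) hU0
    have hq : 0 ≤ s2 ^ 2 / 3 - 1.05833 * s2 + 0.89 := by nlinarith [sq_nonneg (s2 - 1.5875)]
    have h4 : 0.01 ≤ (1 - s2 + s2 ^ 2 / 2 - 0.00074) * (s2 - 0.5) - s2 ^ 3 / 6 := by
      nlinarith [mul_nonneg (sub_nonneg.2 hc) hq]
    linarith

/-- Numerical heart of the three-block sieve, second version. -/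
lemma three_block_numeric' (V U E E1 n2 n3 n1 R rr M : ℝ) (hV : 1 / (rr + 1) ≤ V) (hrr : 0 ≤ rr)
    (hmain : 0.01 ≤ U * (1 - E1) - E) (hR : 0 < R)
    (hM : R * (n2 * (5 + n1) + n3) * (rr + 1) < 0.01 * M) (hM0 : 0 ≤ M) :
    R * (n2 * 1) + R * ((n2 + n3) * 1 + n2 * (1 + n1) + n2 * 1) + R * (n2 * 1) <
      M * (V * (U * 1) + V * ((U - E) * 1 + U * (1 - E1) - U * 1) - V * (U * 1)) := by
  have hmain' : 0.01 ≤ (U - E) * 1 + U * (1 - E1) - U * 1 := by linarith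
  have hr0 : (0 : ℝ) < rr + 1 := by positivity
  have hV0 : 0 < V := lt_of_lt_of_le (by positivity) hV
  have hML : 0.01 / (rr + 1) ≤
      V * (U * 1) + V * ((U - E) * 1 + U * (1 - E1) - U * 1) - V * (U * 1) := by
    have h1 : V * 0.01 ≤ V * ((U - E) * 1 + U * (1 - E1) - U * 1) :=
      mul_le_mul_of_nonneg_left hmain' hV0.le
    have h2 : 0.01 / (rr + 1) = (1 / (rr + 1)) * 0.01 := by ring
    have h3 : (1 / (rr + 1)) * 0.01 ≤ V * 0.01 := mul_le_mul_of_nonneg_right hV (by norm_num)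
    linarith
  calc R * (n2 * 1) + R * ((n2 + n3) * 1 + n2 * (1 + n1) + n2 * 1) + R * (n2 * 1)
      = (R * (n2 * (5 + n1) + n3) * (rr + 1)) / (rr + 1) := by field_simp; ring
    _ < (0.01 * M) / (rr + 1) := by
        apply div_lt_div_of_pos_right hM hr0
    _ = M * (0.01 / (rr + 1)) := by ring
    _ ≤ _ := mul_le_mul_of_nonneg_left hML hM0

/-- Three blocks, second version: only the total reciprocal sum of `mid ∪ top` is restricted. -/
theorem three_block' (tiny mid top : Finset ℕ) (hPt : ∀ p ∈ tiny, p.Prime)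
    (hPm : ∀ p ∈ mid, p.Prime) (hPo : ∀ p ∈ top, p.Prime) (hd1 : Disjoint mid top)
    (hd2 : Disjoint tiny (mid ∪ top)) (hwm : ∀ p ∈ mid, 1024 ≤ p)
    (hσt : ∑ p ∈ top, ((p : ℝ))⁻¹ ≤ 0.925)
    (hσ : ∑ p ∈ top, ((p : ℝ))⁻¹ + ∑ p ∈ mid, ((p : ℝ))⁻¹ ≤ 1.5)
    (m : ℕ)
    (hm : (2 : ℝ) ^ tiny.card * ((cntLe mid.card 2 : ℝ) * (5 + (top.card : ℝ)) +
      (mid.card.choose 3 : ℝ)) * ((tiny.card : ℝ) + 1) < 0.01 * m) (x0 : ℤ) :
    ∃ x ∈ Ico x0 (x0 + m), ∀ p ∈ tiny ∪ (mid ∪ top), ¬ ((p : ℤ) ∣ x) := by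
  classical
  have S1 := SP.exact tiny hPt
  have S2 := SP.block mid hPm 2 even_two
  have S3 := SP.block top hPo 0 Even.zero
  have S23 := S2.union S3 hPm hPo hd1
  have hPmo : ∀ p ∈ mid ∪ top, p.Prime := by
    intro p hp
    rcases Finset.mem_union.1 hp with h | h
    · exact hPm p h
    · exact hPo p h
  have S := S1.union S23 hPt hPmo hd2
  have hPall : ∀ p ∈ tiny ∪ (mid ∪ top), p.Prime := by
    intro p hp
    rcases Finset.mem_union.1 hp with h | h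
    · exact hPt p h
    · exact hPmo p h
  refine S.exists_free hPall m ?_ x0
  have hV : 1 / ((tiny.card : ℝ) + 1) ≤ ∏ p ∈ tiny, (1 - 1 / (p : ℝ)) :=
    dens_ge_inv_card tiny fun p hp => (hPt p hp).two_le
  set σm := ∑ p ∈ mid, ((p : ℝ))⁻¹ with hσmdef
  set σt := ∑ p ∈ top, ((p : ℝ))⁻¹ with hσtdef
  have hσm0 : 0 ≤ σm := Finset.sum_nonneg fun p _ => by positivity
  have hσt0 : 0 ≤ σt := Finset.sum_nonneg fun p _ => by positivity
  have hU : 1 - σm + σm ^ 2 / 2 - 0.00074 ≤ trunc mid 2 := by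
    have h1 := trunc_two_ge mid 1024 (by norm_num) hwm
    have h2 : σm / (2 * ((1024 : ℕ) : ℝ)) ≤ 0.00074 := by
      push_cast
      rw [div_le_iff₀ (by norm_num)]
      linarith
    linarith
  have hE : esym mid 3 ≤ σm ^ 3 / 6 := by
    have h1 := esym_le mid 3
    have h3 : ((3 : ℕ).factorial : ℝ) = 6 := by norm_num [Nat.factorial]
    rwa [h3] at h1
  have hE1 : esym top 1 = σt := esym_one top
  have hmain := main_term_pos σt σm _ _ hσt0 hσm0 hσt hσ hU hE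
  have hT0 : trunc top 0 = 1 := trunc_zero top
  have hc00 : (cntLe top.card 0 : ℝ) = 1 := by simp [cntLe]
  have hc01 : (top.card.choose (0 + 1) : ℝ) = (top.card : ℝ) := by simp
  rw [hT0, hc00, hc01]
  rw [← hE1] at hmain
  exact three_block_numeric' _ _ _ _ _ _ _ _ _ _ hV (Nat.cast_nonneg _) hmain (pow_pos two_pos _) hm
    (Nat.cast_nonneg _)

/-- the reciprocal sum over the top range, with cut-off `2 ^ (s + 10)` -/
lemma top_sum_le' (P : Finset ℕ) (hP : ∀ p ∈ P, p.Prime) (c s : ℕ) (hc : 3700 ≤ c)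
    (hce : (s : ℝ) + 10 ≤ 2.505 * c) (hce' : c ≤ s + 10) (hsub : ∀ p ∈ P, 2 ^ c < p)
    (hcard : P.card ≤ 2 ^ (s + 1)) :
    ∑ p ∈ P, ((p : ℝ))⁻¹ ≤ 0.925 := by
  classical
  have hc0 : (3700 : ℝ) ≤ c := by exact_mod_cast hc
  have hsplit : ∑ p ∈ P, ((p : ℝ))⁻¹ = ∑ p ∈ P.filter (fun p => p ≤ 2 ^ (s + 10)), ((p : ℝ))⁻¹ +
      ∑ p ∈ P.filter (fun p => ¬ p ≤ 2 ^ (s + 10)), ((p : ℝ))⁻¹ :=
    (Finset.sum_filter_add_sum_filter_not _ _ _).symm
  have h1 : ∑ p ∈ P.filter (fun p => p ≤ 2 ^ (s + 10)), ((p : ℝ))⁻¹ ≤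
      ∑ p ∈ (Ioc (2 ^ c) (2 ^ (s + 10))).filter Nat.Prime, ((p : ℝ))⁻¹ := by
    refine Finset.sum_le_sum_of_subset_of_nonneg ?_ fun p _ _ => by positivity
    intro p hp
    obtain ⟨hpt, hpe⟩ := Finset.mem_filter.1 hp
    exact Finset.mem_filter.2 ⟨Finset.mem_Ioc.2 ⟨hsub p hpt, hpe⟩, hP p hpt⟩
  have h2 := sum_inv_primes_dyadic c (s + 10) (by omega) hce'
  have h3 : Real.log (((s + 10 : ℕ) : ℝ) / c) ≤ 0.92 := by
    apply log_le_092 (by positivity)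
    rw [div_le_iff₀ (by linarith)]
    push_cast
    exact hce
  have h4 : 11 / (c : ℝ) ≤ 0.003 := by
    rw [div_le_iff₀ (by linarith)]
    linarith
  have h5 : ∑ p ∈ P.filter (fun p => ¬ p ≤ 2 ^ (s + 10)), ((p : ℝ))⁻¹ ≤ 1 / 512 := by
    have h6 : ∀ p ∈ P.filter (fun p => ¬ p ≤ 2 ^ (s + 10)),
        ((p : ℝ))⁻¹ ≤ ((2 : ℝ) ^ (s + 10))⁻¹ := by
      intro p hp
      have h7 : 2 ^ (s + 10) < p := by
        have := (Finset.mem_filter.1 hp).2
        omega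
      have h8 : ((2 : ℝ) ^ (s + 10)) ≤ p := by exact_mod_cast h7.le
      exact inv_anti₀ (by positivity) h8
    have h9 := Finset.sum_le_card_nsmul _ _ _ h6
    have h10 : (P.filter (fun p => ¬ p ≤ 2 ^ (s + 10))).card ≤ 2 ^ (s + 1) :=
      (Finset.card_le_card (Finset.filter_subset _ _)).trans hcard
    have h12 : (((P.filter (fun p => ¬ p ≤ 2 ^ (s + 10))).card : ℕ) : ℝ) ≤ (2 : ℝ) ^ (s + 1) := by
      exact_mod_cast h10
    rw [nsmul_eq_mul] at h9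
    refine h9.trans ?_
    have h13 : (2 : ℝ) ^ (s + 10) = 2 ^ (s + 1) * 512 := by ring
    calc (((P.filter (fun p => ¬ p ≤ 2 ^ (s + 10))).card : ℕ) : ℝ) * ((2 : ℝ) ^ (s + 10))⁻¹
        ≤ (2 : ℝ) ^ (s + 1) * ((2 : ℝ) ^ (s + 10))⁻¹ :=
          mul_le_mul_of_nonneg_right h12 (by positivity)
      _ = 1 / 512 := by
          rw [h13]
          field_simp
  rw [hsplit]
  linarith

end Vale.Agent.P013
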