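import Vale.Agent.P013.Recip

/-!
# Jacobsthal's function for moduli with bounded reciprocal sum of prime factors: assembly
-/

namespace Vale.Agent.P013

open Finset

lemma recip_numeric (κ T n2 n3 n1 R rr M : ℝ) (hκ1 : 1 ≤ κ) (hT1 : 1 ≤ T) (hTκ : T ≤ κ ^ 2)
    (hn2 : n2 ≤ (T + 1) ^ 2) (hn3 : n3 ≤ T ^ 3) (hn1 : n1 ≤ κ ^ 5) (hn1' : 0 ≤ n1)
    (hR : 0 < R) (hrr : 0 ≤ rr) (hM : 2600 * (rr + 1) * R * κ ^ 9 ≤ M) :
    R * (n2 * (5 + n1) + n3) * (rr + 1) < 0.01 * M := by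
  have h1 : n2 ≤ 4 * κ ^ 4 := by
    calc n2 ≤ (T + 1) ^ 2 := hn2
      _ ≤ (2 * κ ^ 2) ^ 2 := by
          apply pow_le_pow_left₀ (by positivity)
          nlinarith
      _ = 4 * κ ^ 4 := by ring
  have h2 : n3 ≤ κ ^ 6 := by
    calc n3 ≤ T ^ 3 := hn3
      _ ≤ (κ ^ 2) ^ 3 := pow_le_pow_left₀ (by positivity) hTκ 3
      _ = κ ^ 6 := by ring
  have h4 : κ ^ 6 ≤ κ ^ 9 := pow_le_pow_right₀ hκ1 (by norm_num)
  have h5 : (1 : ℝ) ≤ κ ^ 5 := one_le_pow₀ hκ1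
  have h6 : n2 * (5 + n1) ≤ 4 * κ ^ 4 * (6 * κ ^ 5) :=
    mul_le_mul h1 (by linarith) (by positivity) (by positivity)
  have h7 : 4 * κ ^ 4 * (6 * κ ^ 5) = 24 * κ ^ 9 := by ring
  have h8 : n2 * (5 + n1) + n3 ≤ 25 * κ ^ 9 := by linarith
  have hκ9 : 0 < κ ^ 9 := by positivity
  have hr0 : (0 : ℝ) < rr + 1 := by positivity
  calc R * (n2 * (5 + n1) + n3) * (rr + 1) ≤ R * (25 * κ ^ 9) * (rr + 1) := by
        apply mul_le_mul_of_nonneg_right _ hr0.le
        exact mul_le_mul_of_nonneg_left h8 hR.le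
    _ < R * (26 * κ ^ 9) * (rr + 1) := by
        apply mul_lt_mul_of_pos_right _ hr0
        apply mul_lt_mul_of_pos_left _ hR
        linarith
    _ = 0.01 * (2600 * (rr + 1) * R * κ ^ 9) := by ring
    _ ≤ 0.01 * M := mul_le_mul_of_nonneg_left hM (by norm_num)

/-- The main estimate for a set `P` of at least `2 ^ 10000` primes. -/
theorem recip_core (P : Finset ℕ) (hP : ∀ p ∈ P, p.Prime) (s : ℕ) (hs : 10000 ≤ s)
    (hk1 : 2 ^ s ≤ P.card) (hk2 : P.card < 2 ^ (s + 1)) (κ : ℝ) (hκ : κ ^ 5 = P.card) (hκ0 : 0 ≤ κ)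
    (W : ℕ) (hW : 1024 ≤ W) (hσ : ∑ p ∈ P.filter (fun p => W ≤ p), ((p : ℝ))⁻¹ ≤ 1.5) (m : ℕ)
    (hm : 2600 * (((P.filter fun p => p < W).card : ℝ) + 1) *
      2 ^ (P.filter fun p => p < W).card * κ ^ 9 ≤ m) (x0 : ℤ) :
    ∃ x ∈ Ico x0 (x0 + m), ∀ p ∈ P, ¬ ((p : ℤ) ∣ x) := by
  classical
  set k := P.card with hk
  obtain ⟨c, hc⟩ : ∃ c, c = 2 * s / 5 := ⟨_, rfl⟩
  have hc1 : 5 * c ≤ 2 * s := by omega
  have hc2 : 2 * s ≤ 5 * c + 4 := by omega
  set tiny := P.filter fun p => p < W with htiny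
  set mid := P.filter fun p => W ≤ p ∧ p ≤ 2 ^ c with hmid
  set top := P.filter fun p => W ≤ p ∧ 2 ^ c < p with htop
  have hPt : ∀ p ∈ tiny, p.Prime := fun p hp => hP p (Finset.mem_filter.1 hp).1
  have hPm : ∀ p ∈ mid, p.Prime := fun p hp => hP p (Finset.mem_filter.1 hp).1
  have hPo : ∀ p ∈ top, p.Prime := fun p hp => hP p (Finset.mem_filter.1 hp).1
  have hdec : P = tiny ∪ (mid ∪ top) := by
    ext p
    simp only [htiny, hmid, htop, Finset.mem_union, Finset.mem_filter]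
    constructor
    · intro hp
      rcases Nat.lt_or_ge p W with h1 | h1
      · exact Or.inl ⟨hp, h1⟩
      · rcases Nat.lt_or_ge (2 ^ c) p with h2 | h2
        · exact Or.inr (Or.inr ⟨hp, h1, h2⟩)
        · exact Or.inr (Or.inl ⟨hp, h1, h2⟩)
    · rintro (h | h | h) <;> exact h.1
  have hd1 : Disjoint mid top := by
    rw [Finset.disjoint_left]
    intro p h1 h2
    have := (Finset.mem_filter.1 h1).2.2
    have := (Finset.mem_filter.1 h2).2.2
    omega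
  have hd2 : Disjoint tiny (mid ∪ top) := by
    rw [Finset.disjoint_left]
    intro p h1 h2
    have h3 := (Finset.mem_filter.1 h1).2
    rcases Finset.mem_union.1 h2 with h | h
    · have := (Finset.mem_filter.1 h).2.1; omega
    · have := (Finset.mem_filter.1 h).2.1; omega
  have hsR : (10000 : ℝ) ≤ s := by exact_mod_cast hs
  have hc1R : 5 * (c : ℝ) ≤ 2 * s := by exact_mod_cast hc1
  have hc2R : 2 * (s : ℝ) ≤ 5 * c + 4 := by exact_mod_cast hc2
  have hσt := top_sum_le' top hPo c s (by omega) (by linarith) (by omega)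
    (fun p hp => (Finset.mem_filter.1 hp).2.2)
    ((Finset.card_le_card (Finset.filter_subset _ _)).trans hk2.le)
  have hσ' : ∑ p ∈ top, ((p : ℝ))⁻¹ + ∑ p ∈ mid, ((p : ℝ))⁻¹ ≤ 1.5 := by
    have h1 : P.filter (fun p => W ≤ p) = mid ∪ top := by
      ext p
      simp only [hmid, htop, Finset.mem_union, Finset.mem_filter]
      constructor
      · rintro ⟨hp, h1⟩
        rcases Nat.lt_or_ge (2 ^ c) p with h2 | h2
        · exact Or.inr ⟨hp, h1, h2⟩
        · exact Or.inl ⟨hp, h1, h2⟩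
      · rintro (h | h) <;> exact ⟨h.1, h.2.1⟩
    rw [h1, Finset.sum_union hd1] at hσ
    linarith
  have hmid_card : mid.card ≤ 2 ^ c := by
    have hsub : mid ⊆ Ioc 0 (2 ^ c) := fun p hp =>
      Finset.mem_Ioc.2 ⟨(hPm p hp).pos, (Finset.mem_filter.1 hp).2.2⟩
    have h1 := Finset.card_le_card hsub
    simpa using h1
  have htop_card : top.card ≤ k := Finset.card_le_card (Finset.filter_subset _ _)
  rw [hdec]
  refine three_block' tiny mid top hPt hPm hPo hd1 hd2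
    (fun p hp => hW.trans (Finset.mem_filter.1 hp).2.1) hσt hσ' m ?_ x0
  have hκ1 : 1 ≤ κ := by
    by_contra hlt
    have hlt' : κ < 1 := not_le.1 hlt
    have h1 : κ ^ 5 < 1 := pow_lt_one₀ hκ0 hlt' (by norm_num)
    have h2 : (1 : ℝ) ≤ (k : ℝ) := by
      have : 1 ≤ k := le_trans Nat.one_le_two_pow hk1
      exact_mod_cast this
    linarith
  have hTκ : (2 : ℝ) ^ c ≤ κ ^ 2 := by
    have h1 : ((2 : ℝ) ^ c) ^ 5 ≤ (κ ^ 2) ^ 5 := by
      have h2 : (2 ^ c) ^ 5 ≤ k ^ 2 := by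
        calc (2 ^ c) ^ 5 = 2 ^ (5 * c) := by rw [← pow_mul, mul_comm]
          _ ≤ 2 ^ (2 * s) := Nat.pow_le_pow_right (by norm_num) hc1
          _ = (2 ^ s) ^ 2 := by rw [← pow_mul, mul_comm]
          _ ≤ k ^ 2 := Nat.pow_le_pow_left hk1 2
      have h3 : ((2 : ℝ) ^ c) ^ 5 ≤ (k : ℝ) ^ 2 := by exact_mod_cast h2
      calc ((2 : ℝ) ^ c) ^ 5 ≤ (k : ℝ) ^ 2 := h3
        _ = (κ ^ 2) ^ 5 := by rw [← hκ]; ring
    exact (pow_le_pow_iff_left₀ (by positivity) (by positivity) (by norm_num)).1 h1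
  have hn2 : (cntLe mid.card 2 : ℝ) ≤ ((2 : ℝ) ^ c + 1) ^ 2 := by
    have h1 : cntLe mid.card 2 ≤ (2 ^ c + 1) ^ 2 :=
      (cntLe_le_pow _ _).trans (Nat.pow_le_pow_left (by omega) 2)
    exact_mod_cast h1
  have hn3 : (mid.card.choose 3 : ℝ) ≤ ((2 : ℝ) ^ c) ^ 3 := by
    have h1 : mid.card.choose 3 ≤ (2 ^ c) ^ 3 :=
      (Nat.choose_le_pow _ _).trans (Nat.pow_le_pow_left hmid_card 3)
    exact_mod_cast h1
  have hn1 : (top.card : ℝ) ≤ κ ^ 5 := by
    rw [hκ]; exact_mod_cast htop_card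
  have hT1 : (1 : ℝ) ≤ (2 : ℝ) ^ c := one_le_pow₀ (by norm_num)
  exact recip_numeric κ ((2 : ℝ) ^ c) _ _ _ _ _ _ hκ1 hT1 hTκ hn2 hn3 hn1 (Nat.cast_nonneg _)
    (pow_pos two_pos _) (Nat.cast_nonneg _) hm

/-- auxiliary form with an abstract threshold `k0` and an abstract constant `K = 2 ^ 1024` -/
theorem recip_aux (k0 : ℕ) (hk0 : ∀ k, k0 ≤ k → 10000 ≤ Nat.log 2 k) (K : ℝ)
    (hK : K = 2 ^ 1024) (n : ℕ) (hn : 2 ≤ n) (w : ℕ)
    (hσ : ∑ p ∈ n.primeFactors.filter (fun p => w ≤ p), ((p : ℝ))⁻¹ ≤ 3 / 2) (m : ℕ)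
    (hm : max (2600 * 1025 * K) (((k0 : ℝ) + 1) * 2 ^ k0 + 1) *
      (((n.primeFactors.filter fun p => p < w).card : ℝ) + 1) *
      2 ^ (n.primeFactors.filter fun p => p < w).card *
      (n.primeFactors.card : ℝ) ^ ((9 : ℝ) / 5) ≤ m) (a : ℤ) :
    ∃ x ∈ Set.Ico a (a + m), IsCoprime x (n : ℤ) := by
  classical
  set P := n.primeFactors with hPdef
  have hP : ∀ p ∈ P, p.Prime := fun p hp => Nat.prime_of_mem_primeFactors hp
  set k := P.card with hk
  set r := (P.filter fun p => p < w).card with hr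
  have hK0 : 0 < K := by rw [hK]; exact pow_pos two_pos _
  have hk1 : 1 ≤ k := by
    rw [hk, Nat.succ_le_iff, Finset.card_pos, hPdef, Nat.nonempty_primeFactors]
    omega
  have hk1R : (1 : ℝ) ≤ k := by exact_mod_cast hk1
  have hfree : ∃ x ∈ Ico a (a + m), ∀ p ∈ P, ¬ ((p : ℤ) ∣ x) := by
    rcases Nat.lt_or_ge k k0 with hlt | hge
    · -- small `k`: the Legendre sieve
      apply exists_free_exact P hP m _ a
      have h1 : (1 : ℝ) ≤ (k : ℝ) ^ ((9 : ℝ) / 5) := Real.one_le_rpow hk1R (by norm_num)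
      have h2 : (1 : ℝ) ≤ (2 : ℝ) ^ r := one_le_pow₀ (by norm_num)
      have h3 : (1 : ℝ) ≤ (r : ℝ) + 1 := by
        have : (0 : ℝ) ≤ r := Nat.cast_nonneg _
        linarith
      have h4 : ((k0 : ℝ) + 1) * 2 ^ k0 + 1 ≤ m := by
        have hC0 : (0 : ℝ) ≤ ((k0 : ℝ) + 1) * 2 ^ k0 + 1 := by positivity
        calc ((k0 : ℝ) + 1) * 2 ^ k0 + 1
            = (((k0 : ℝ) + 1) * 2 ^ k0 + 1) * 1 * 1 * 1 := by ring
          _ ≤ max (2600 * 1025 * K) (((k0 : ℝ) + 1) * 2 ^ k0 + 1) * ((r : ℝ) + 1) * 2 ^ r *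
              (k : ℝ) ^ ((9 : ℝ) / 5) := by
              gcongr
              exact le_max_right _ _
          _ ≤ m := hm
      have h5 : ((k : ℝ) + 1) * 2 ^ k ≤ ((k0 : ℝ) + 1) * 2 ^ k0 := by
        have h6 : (k : ℝ) ≤ k0 := by exact_mod_cast hlt.le
        have h7 : (2 : ℝ) ^ k ≤ 2 ^ k0 := pow_le_pow_right₀ (by norm_num) hlt.le
        gcongr
      linarith
    · -- large `k`
      have hkne : k ≠ 0 := by omega
      have hs1 : 2 ^ (Nat.log 2 k) ≤ k := Nat.pow_log_le_self 2 hkne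
      have hs2 : k < 2 ^ (Nat.log 2 k + 1) := Nat.lt_pow_succ_log_self (by norm_num) k
      have hs3 : 10000 ≤ Nat.log 2 k := hk0 k hge
      have hk0R : (0 : ℝ) ≤ k := Nat.cast_nonneg _
      have hκ5 : ((k : ℝ) ^ ((1 : ℝ) / 5)) ^ 5 = k := by
        rw [← Real.rpow_natCast, ← Real.rpow_mul hk0R]
        norm_num
      have hκ9 : ((k : ℝ) ^ ((1 : ℝ) / 5)) ^ 9 = (k : ℝ) ^ ((9 : ℝ) / 5) := by
        rw [← Real.rpow_natCast, ← Real.rpow_mul hk0R]
        norm_num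
      -- the enlarged exact block
      have hσW : ∑ p ∈ P.filter (fun p => max w 1024 ≤ p), ((p : ℝ))⁻¹ ≤ 1.5 := by
        have h1 : ∑ p ∈ P.filter (fun p => max w 1024 ≤ p), ((p : ℝ))⁻¹ ≤
            ∑ p ∈ P.filter (fun p => w ≤ p), ((p : ℝ))⁻¹ := by
          refine Finset.sum_le_sum_of_subset_of_nonneg ?_ fun p _ _ => by positivity
          intro p hp
          obtain ⟨h1, h2⟩ := Finset.mem_filter.1 hp
          exact Finset.mem_filter.2 ⟨h1, (le_max_left _ _).trans h2⟩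
        have h2 : (3 : ℝ) / 2 = 1.5 := by norm_num
        linarith
      have hr' : (P.filter fun p => p < max w 1024).card ≤ r + 1024 := by
        have hsub : (P.filter fun p => p < max w 1024) ⊆
            (P.filter fun p => p < w) ∪ Finset.range 1024 := by
          intro p hp
          obtain ⟨h1, h2⟩ := Finset.mem_filter.1 hp
          rcases lt_max_iff.1 h2 with h3 | h3
          · exact Finset.mem_union_left _ (Finset.mem_filter.2 ⟨h1, h3⟩)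
          · exact Finset.mem_union_right _ (Finset.mem_range.2 h3)
        calc (P.filter fun p => p < max w 1024).card
            ≤ ((P.filter fun p => p < w) ∪ Finset.range 1024).card := Finset.card_le_card hsub
          _ ≤ (P.filter fun p => p < w).card + (Finset.range 1024).card := Finset.card_union_le _ _
          _ = r + 1024 := by rw [Finset.card_range]
      refine recip_core P hP (Nat.log 2 k) hs3 hs1 hs2 ((k : ℝ) ^ ((1 : ℝ) / 5)) hκ5
        (Real.rpow_nonneg hk0R _) (max w 1024) (le_max_right _ _) hσW m ?_ a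
      rw [hκ9]
      refine le_trans ?_ hm
      set r' := (P.filter fun p => p < max w 1024).card with hr'def
      have hr0 : (0 : ℝ) ≤ r := Nat.cast_nonneg _
      have h1 : ((r' : ℝ) + 1) ≤ 1025 * ((r : ℝ) + 1) := by
        have : (r' : ℝ) ≤ (r : ℝ) + 1024 := by exact_mod_cast hr'
        linarith
      have h2 : (2 : ℝ) ^ r' ≤ K * 2 ^ r := by
        calc (2 : ℝ) ^ r' ≤ 2 ^ (r + 1024) := pow_le_pow_right₀ (by norm_num) hr'
          _ = K * 2 ^ r := by rw [hK, pow_add, mul_comm]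
      have h3 : (0 : ℝ) ≤ (k : ℝ) ^ ((9 : ℝ) / 5) := Real.rpow_nonneg hk0R _
      have h4 : ((r' : ℝ) + 1) * 2 ^ r' ≤ (1025 * ((r : ℝ) + 1)) * (K * 2 ^ r) :=
        mul_le_mul h1 h2 (by positivity) (by positivity)
      calc 2600 * ((r' : ℝ) + 1) * 2 ^ r' * (k : ℝ) ^ ((9 : ℝ) / 5)
          = 2600 * (((r' : ℝ) + 1) * 2 ^ r') * (k : ℝ) ^ ((9 : ℝ) / 5) := by ring
        _ ≤ 2600 * ((1025 * ((r : ℝ) + 1)) * (K * 2 ^ r)) * (k : ℝ) ^ ((9 : ℝ) / 5) := by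
            gcongr
        _ = (2600 * 1025 * K) * ((r : ℝ) + 1) * 2 ^ r * (k : ℝ) ^ ((9 : ℝ) / 5) := by ring
        _ ≤ max (2600 * 1025 * K) (((k0 : ℝ) + 1) * 2 ^ k0 + 1) * ((r : ℝ) + 1) * 2 ^ r *
            (k : ℝ) ^ ((9 : ℝ) / 5) := by
            gcongr
            exact le_max_left _ _
  obtain ⟨x, hx, hfr⟩ := hfree
  refine ⟨x, ?_, isCoprime_of_free (by omega) hfr⟩
  have := Finset.mem_Ico.1 hx
  exact ⟨this.1, this.2⟩

lemma exists_threshold' : ∃ k0 : ℕ, ∀ k, k0 ≤ k → 10000 ≤ Nat.log 2 k :=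
  ⟨2 ^ 10000, fun _ hk => (Nat.le_log_iff_pow_le Nat.one_lt_two
    (Nat.ne_of_gt (lt_of_lt_of_le (Nat.pow_pos Nat.two_pos) hk))).2 hk⟩

/-- **Bounded reciprocal sum.**  There is an absolute constant `C` such that for all `n ≥ 2` and
all `w`: if the prime factors `p ≥ w` of `n` have reciprocal sum at most `3 / 2`, and `r` is the
number of prime factors `p < w`, then every `m ≥ C (r + 1) 2 ^ r ω(n) ^ (9 / 5)` consecutive integers
contain an integer coprime to `n`. -/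
theorem recip_sum_tail : ∃ C : ℝ, 0 < C ∧ ∀ n : ℕ, 2 ≤ n → ∀ w : ℕ,
    ∑ p ∈ n.primeFactors.filter (fun p => w ≤ p), ((p : ℝ))⁻¹ ≤ 3 / 2 → ∀ m : ℕ,
    C * (((n.primeFactors.filter fun p => p < w).card : ℝ) + 1) *
      2 ^ (n.primeFactors.filter fun p => p < w).card *
      (n.primeFactors.card : ℝ) ^ ((9 : ℝ) / 5) ≤ m →
    ∀ a : ℤ, ∃ x ∈ Set.Ico a (a + m), IsCoprime x (n : ℤ) := by
  obtain ⟨k0, hk0⟩ := exists_threshold'
  obtain ⟨K, hK⟩ : ∃ K : ℝ, K = 2 ^ 1024 := ⟨_, rfl⟩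
  refine ⟨max (2600 * 1025 * K) (((k0 : ℝ) + 1) * 2 ^ k0 + 1),
    lt_of_lt_of_le (by positivity) (le_max_right _ _),
    fun n hn w hσ m hm a => recip_aux k0 hk0 K hK n hn w hσ m hm a⟩

end Vale.Agent.P013
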