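import Mathlib

/-!
# Divisor-sum representations on intervals of integers

A function `F : ℤ → ℝ` is *represented* with modulus `Q`, density `M` and mass `N` when it is a
finite real combination of indicator functions of divisibility by divisors of `Q`; `M` is the sum of
`w / d` and `N` bounds the sum of `|w|`.  Summing such a function over `m` consecutive integers gives
`m * M` up to an error at most `N`.
-/

namespace Vale.Agent.P013

open Finset

/-- indicator of `d ∣ x` as a real number -/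
noncomputable def dv (d : ℕ) (x : ℤ) : ℝ := if (d : ℤ) ∣ x then 1 else 0

lemma dv_nonneg (d : ℕ) (x : ℤ) : 0 ≤ dv d x := by
  unfold dv; split_ifs <;> norm_num

lemma dv_one (x : ℤ) : dv 1 x = 1 := by
  simp [dv]

lemma dv_mul {d e : ℕ} (h : Nat.Coprime d e) (x : ℤ) : dv (d * e) x = dv d x * dv e x := by
  unfold dv
  have hc : IsCoprime (d : ℤ) (e : ℤ) := Nat.isCoprime_iff_coprime.2 h
  by_cases h1 : (d : ℤ) ∣ x
  · by_cases h2 : (e : ℤ) ∣ x
    · have : ((d * e : ℕ) : ℤ) ∣ x := by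
        push_cast
        exact hc.mul_dvd h1 h2
      rw [if_pos h1, if_pos h2, if_pos this]; norm_num
    · have : ¬ ((d * e : ℕ) : ℤ) ∣ x := by
        intro h3
        apply h2
        push_cast at h3
        exact dvd_trans (dvd_mul_left _ _) h3
      rw [if_pos h1, if_neg h2, if_neg this]; norm_num
  · have : ¬ ((d * e : ℕ) : ℤ) ∣ x := by
      intro h3
      apply h1
      push_cast at h3
      exact dvd_trans (dvd_mul_right _ _) h3
    rw [if_neg h1, if_neg this]; norm_num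

/-- The number of multiples of `d` among `m` consecutive integers is `m / d` up to `1`. -/
lemma cnt_bound (d : ℕ) (hd : 0 < d) (a : ℤ) (m : ℕ) :
    |(∑ x ∈ Ico a (a + m), dv d x) - (m : ℝ) / d| ≤ 1 := by
  have h1 : (∑ x ∈ Ico a (a + m), dv d x) = (((Ico a (a + m)).filter (fun x => (d : ℤ) ∣ x)).card : ℝ) := by
    unfold dv
    rw [Finset.sum_ite]
    simp
  have hd' : (0 : ℤ) < (d : ℤ) := by exact_mod_cast hd
  have h2 := Int.Ico_filter_dvd_card a (a + m) hd'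
  have hdq : (0 : ℚ) < ((d : ℤ) : ℚ) := by exact_mod_cast hd
  set u : ℚ := (a : ℚ) / ((d : ℤ) : ℚ) with hu
  set v : ℚ := ((a + m : ℤ) : ℚ) / ((d : ℤ) : ℚ) with hv
  have hvu : v - u = (m : ℚ) / (d : ℚ) := by
    rw [hv, hu]
    push_cast
    field_simp
    ring
  have hmd : (0 : ℚ) ≤ (m : ℚ) / (d : ℚ) := by positivity
  have c1 := Int.le_ceil u
  have c2 := Int.ceil_lt_add_one u
  have c3 := Int.le_ceil v
  have c4 := Int.ceil_lt_add_one v
  set K : ℕ := ((Ico a (a + m)).filter (fun x => (d : ℤ) ∣ x)).card with hK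
  have h3 : ((K : ℤ) : ℚ) = max ((⌈v⌉ : ℚ) - (⌈u⌉ : ℚ)) 0 := by
    rw [h2]
    push_cast
    rfl
  have h4 : |((K : ℚ)) - (m : ℚ) / (d : ℚ)| ≤ 1 := by
    have h5 : ((K : ℤ) : ℚ) = (K : ℚ) := by norm_cast
    rw [← h5, h3, abs_le]
    constructor
    · have : (⌈v⌉ : ℚ) - (⌈u⌉ : ℚ) ≤ max ((⌈v⌉ : ℚ) - (⌈u⌉ : ℚ)) 0 := le_max_left _ _
      linarith
    · rcases max_cases ((⌈v⌉ : ℚ) - (⌈u⌉ : ℚ)) 0 with ⟨h, _⟩ | ⟨h, _⟩
      · rw [h]; linarith
      · rw [h]; linarith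
  rw [h1]
  have h6 : ((K : ℝ)) - (m : ℝ) / (d : ℝ) = (((K : ℚ) - (m : ℚ) / (d : ℚ) : ℚ) : ℝ) := by
    push_cast; ring
  rw [h6, ← Rat.cast_abs]
  exact_mod_cast h4

/-- `F` is a combination of divisibility indicators for divisors of `Q`, with density `M` and
mass at most `N`. -/
def Rep (Q : ℕ) (F : ℤ → ℝ) (M N : ℝ) : Prop :=
  ∃ (ι : Type) (_ : Fintype ι) (d : ι → ℕ) (w : ι → ℝ),
    (∀ i, d i ∣ Q) ∧ (∀ x, F x = ∑ i, w i * dv (d i) x) ∧
      (∑ i, w i / (d i : ℝ) = M) ∧ (∑ i, |w i| ≤ N)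

lemma Rep.mass_nonneg {Q : ℕ} {F : ℤ → ℝ} {M N : ℝ} (h : Rep Q F M N) : 0 ≤ N := by
  obtain ⟨ι, _, d, w, -, -, -, h4⟩ := h
  exact le_trans (Finset.sum_nonneg fun i _ => abs_nonneg _) h4

lemma Rep.mono {Q : ℕ} {F : ℤ → ℝ} {M N N' : ℝ} (h : Rep Q F M N) (hN : N ≤ N') :
    Rep Q F M N' := by
  obtain ⟨ι, i1, d, w, h1, h2, h3, h4⟩ := h
  exact ⟨ι, i1, d, w, h1, h2, h3, h4.trans hN⟩

lemma Rep.of_dvd {Q Q' : ℕ} {F : ℤ → ℝ} {M N : ℝ} (h : Rep Q F M N) (hQ : Q ∣ Q') :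
    Rep Q' F M N := by
  obtain ⟨ι, i1, d, w, h1, h2, h3, h4⟩ := h
  exact ⟨ι, i1, d, w, fun i => (h1 i).trans hQ, h2, h3, h4⟩

lemma Rep.congr {Q : ℕ} {F G : ℤ → ℝ} {M M' N : ℝ} (h : Rep Q F M N) (hF : ∀ x, G x = F x)
    (hM : M = M') : Rep Q G M' N := by
  obtain ⟨ι, i1, d, w, h1, h2, h3, h4⟩ := h
  exact ⟨ι, i1, d, w, h1, fun x => (hF x).trans (h2 x), h3.trans hM, h4⟩

lemma Rep.single (Q d : ℕ) (hd : d ∣ Q) (c : ℝ) :
    Rep Q (fun x => c * dv d x) (c / d) |c| :=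
  ⟨Unit, inferInstance, fun _ => d, fun _ => c, fun _ => hd, fun x => by simp, by simp, by simp⟩

lemma Rep.const (Q : ℕ) (c : ℝ) : Rep Q (fun _ => c) c |c| :=
  (Rep.single Q 1 (one_dvd _) c).congr (fun x => by simp [dv_one]) (by simp)

lemma Rep.add {Q : ℕ} {F G : ℤ → ℝ} {M M' N N' : ℝ} (h : Rep Q F M N) (h' : Rep Q G M' N') :
    Rep Q (fun x => F x + G x) (M + M') (N + N') := by
  obtain ⟨ι, i1, d, w, h1, h2, h3, h4⟩ := h
  obtain ⟨κ, i2, e, v, g1, g2, g3, g4⟩ := h'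
  refine ⟨ι ⊕ κ, inferInstance, Sum.elim d e, Sum.elim w v, ?_, ?_, ?_, ?_⟩
  · rintro (i | i)
    · exact h1 i
    · exact g1 i
  · intro x
    show F x + G x = _
    rw [Fintype.sum_sum_type, h2 x, g2 x]
    simp
  · rw [Fintype.sum_sum_type]
    simp [h3, g3]
  · rw [Fintype.sum_sum_type]
    simpa using add_le_add h4 g4

lemma Rep.smul {Q : ℕ} {F : ℤ → ℝ} {M N : ℝ} (c : ℝ) (h : Rep Q F M N) :
    Rep Q (fun x => c * F x) (c * M) (|c| * N) := by
  obtain ⟨ι, i1, d, w, h1, h2, h3, h4⟩ := h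
  refine ⟨ι, i1, d, fun i => c * w i, h1, ?_, ?_, ?_⟩
  · intro x
    show c * F x = _
    rw [h2 x, Finset.mul_sum]
    exact Finset.sum_congr rfl fun i _ => by ring
  · rw [← h3, Finset.mul_sum]
    exact Finset.sum_congr rfl fun i _ => by ring
  · simp only [abs_mul]
    rw [← Finset.mul_sum]
    exact mul_le_mul_of_nonneg_left h4 (abs_nonneg _)

lemma Rep.neg {Q : ℕ} {F : ℤ → ℝ} {M N : ℝ} (h : Rep Q F M N) :
    Rep Q (fun x => - F x) (- M) N := by
  have := h.smul (-1)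
  simp only [abs_neg, abs_one, one_mul] at this
  exact this.congr (fun x => by ring) (by ring)

lemma Rep.sub {Q : ℕ} {F G : ℤ → ℝ} {M M' N N' : ℝ} (h : Rep Q F M N) (h' : Rep Q G M' N') :
    Rep Q (fun x => F x - G x) (M - M') (N + N') :=
  (h.add h'.neg).congr (fun x => by ring) (by ring)

lemma Rep.sum {Q : ℕ} {α : Type*} (s : Finset α) (F : α → ℤ → ℝ) (M N : α → ℝ)
    (h : ∀ i ∈ s, Rep Q (F i) (M i) (N i)) :
    Rep Q (fun x => ∑ i ∈ s, F i x) (∑ i ∈ s, M i) (∑ i ∈ s, N i) := by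
  classical
  induction s using Finset.induction_on with
  | empty => simpa using Rep.const Q 0
  | insert a s ha ih =>
    have h1 := h a (Finset.mem_insert_self _ _)
    have h2 := ih fun i hi => h i (Finset.mem_insert_of_mem hi)
    have := h1.add h2
    simp only [Finset.sum_insert ha]
    exact this

lemma Rep.mul {Q Q' : ℕ} {F G : ℤ → ℝ} {M M' N N' : ℝ} (h : Rep Q F M N) (h' : Rep Q' G M' N')
    (hc : Nat.Coprime Q Q') : Rep (Q * Q') (fun x => F x * G x) (M * M') (N * N') := by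
  have hN := h.mass_nonneg
  obtain ⟨ι, i1, d, w, h1, h2, h3, h4⟩ := h
  obtain ⟨κ, i2, e, v, g1, g2, g3, g4⟩ := h'
  refine ⟨ι × κ, inferInstance, fun p => d p.1 * e p.2, fun p => w p.1 * v p.2, ?_, ?_, ?_, ?_⟩
  · rintro ⟨i, j⟩
    exact mul_dvd_mul (h1 i) (g1 j)
  · intro x
    show F x * G x = _
    rw [h2 x, g2 x, Fintype.sum_mul_sum, Fintype.sum_prod_type]
    refine Finset.sum_congr rfl fun i _ => Finset.sum_congr rfl fun j _ => ?_
    have hcop : Nat.Coprime (d i) (e j) := Nat.Coprime.of_dvd (h1 i) (g1 j) hc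
    simp only
    rw [dv_mul hcop]
    ring
  · rw [← h3, ← g3, Fintype.sum_mul_sum, Fintype.sum_prod_type]
    refine Finset.sum_congr rfl fun i _ => Finset.sum_congr rfl fun j _ => ?_
    push_cast
    rw [div_mul_div_comm]
  · have : ∑ p : ι × κ, |w p.1 * v p.2| = (∑ i, |w i|) * (∑ j, |v j|) := by
      rw [Fintype.sum_mul_sum, Fintype.sum_prod_type]
      exact Finset.sum_congr rfl fun i _ => Finset.sum_congr rfl fun j _ => abs_mul _ _
    rw [this]
    exact mul_le_mul h4 g4 (Finset.sum_nonneg fun i _ => abs_nonneg _) hN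

/-- Summing a represented function over `m` consecutive integers. -/
lemma Rep.sum_Ico {Q : ℕ} {F : ℤ → ℝ} {M N : ℝ} (h : Rep Q F M N) (hQ : Q ≠ 0) (a : ℤ) (m : ℕ) :
    |(∑ x ∈ Ico a (a + m), F x) - m * M| ≤ N := by
  obtain ⟨ι, i1, d, w, h1, h2, h3, h4⟩ := h
  have e1 : (∑ x ∈ Ico a (a + m), F x) = ∑ i, w i * ∑ x ∈ Ico a (a + m), dv (d i) x := by
    simp only [h2]
    rw [Finset.sum_comm]
    exact Finset.sum_congr rfl fun i _ => by rw [Finset.mul_sum]
  have e2 : (m : ℝ) * M = ∑ i, w i * ((m : ℝ) / d i) := by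
    rw [← h3, Finset.mul_sum]
    exact Finset.sum_congr rfl fun i _ => by ring
  rw [e1, e2, ← Finset.sum_sub_distrib]
  refine le_trans (Finset.abs_sum_le_sum_abs _ _) (le_trans ?_ h4)
  refine Finset.sum_le_sum fun i _ => ?_
  rw [← mul_sub, abs_mul]
  have hdpos : 0 < d i := Nat.pos_of_ne_zero fun h0 => hQ (by
    have := h1 i
    rw [h0] at this
    exact Nat.eq_zero_of_zero_dvd this)
  calc |w i| * |(∑ x ∈ Ico a (a + m), dv (d i) x) - (m : ℝ) / d i| ≤ |w i| * 1 :=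
        mul_le_mul_of_nonneg_left (cnt_bound _ hdpos a m) (abs_nonneg _)
    _ = |w i| := mul_one _

end Vale.Agent.P013
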