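import Vale.Agent.P013.Tools

/-!
# Jacobsthal's function for moduli with few small prime factors
-/

namespace Vale.Agent.P013

open Finset

lemma log_le_092 {x : ℝ} (hx0 : 0 < x) (hx : x ≤ 2.505) : Real.log x ≤ 0.92 := by
  rw [Real.log_le_iff_le_exp hx0]
  refine hx.trans (le_trans ?_ (Real.sum_le_exp_of_nonneg (by norm_num) 8))
  norm_num [Finset.sum_range_succ, Nat.factorial]

lemma log_le_0475 {x : ℝ} (hx0 : 0 < x) (hx : x ≤ 1.605) : Real.log x ≤ 0.475 := by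
  rw [Real.log_le_iff_le_exp hx0]
  refine hx.trans (le_trans ?_ (Real.sum_le_exp_of_nonneg (by norm_num) 6))
  norm_num [Finset.sum_range_succ, Nat.factorial]

lemma two_pow_lt_of_prime {p a : ℕ} (hp : p.Prime) (ha : 2 ≤ a) (h : 2 ^ a ≤ p) : 2 ^ a < p := by
  rcases Nat.lt_or_ge (2 ^ a) p with h1 | h1
  · exact h1
  · exfalso
    have hpe : p = 2 ^ a := le_antisymm h1 h
    have h2 : 2 ∣ p := by
      rw [hpe]; exact dvd_pow_self 2 (by omega)
    have h3 : 2 = p := (Nat.prime_dvd_prime_iff_eq Nat.prime_two hp).1 h2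
    have h4 : 2 ^ 2 ≤ 2 ^ a := Nat.pow_le_pow_right (by norm_num) ha
    omega

/-- Numerical heart of the three-block sieve. -/
lemma three_block_numeric (V U E E1 n2 n3 n1 R rr M : ℝ) (hV : 1 / (rr + 1) ≤ V) (hrr : 0 ≤ rr)
    (hU : 0.519 ≤ U) (hE : E ≤ 0.018432) (hE1 : E1 ≤ 0.9387) (hR : 0 < R)
    (hM : R * (n2 * (5 + n1) + n3) * (rr + 1) < 0.013 * M) (hM0 : 0 ≤ M) :
    R * (n2 * 1) + R * ((n2 + n3) * 1 + n2 * (1 + n1) + n2 * 1) + R * (n2 * 1) <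
      M * (V * (U * 1) + V * ((U - E) * 1 + U * (1 - E1) - U * 1) - V * (U * 1)) := by
  have hmain : 0.013 ≤ (U - E) * 1 + U * (1 - E1) - U * 1 := by nlinarith
  have hr0 : (0 : ℝ) < rr + 1 := by positivity
  have hV0 : 0 < V := lt_of_lt_of_le (by positivity) hV
  have hML : 0.013 / (rr + 1) ≤
      V * (U * 1) + V * ((U - E) * 1 + U * (1 - E1) - U * 1) - V * (U * 1) := by
    have h1 : V * 0.013 ≤ V * ((U - E) * 1 + U * (1 - E1) - U * 1) :=
      mul_le_mul_of_nonneg_left hmain hV0.le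
    have h2 : 0.013 / (rr + 1) = (1 / (rr + 1)) * 0.013 := by ring
    have h3 : (1 / (rr + 1)) * 0.013 ≤ V * 0.013 := mul_le_mul_of_nonneg_right hV (by norm_num)
    linarith
  calc R * (n2 * 1) + R * ((n2 + n3) * 1 + n2 * (1 + n1) + n2 * 1) + R * (n2 * 1)
      = (R * (n2 * (5 + n1) + n3) * (rr + 1)) / (rr + 1) := by field_simp; ring
    _ < (0.013 * M) / (rr + 1) := by
        apply div_lt_div_of_pos_right hM hr0
    _ = M * (0.013 / (rr + 1)) := by ring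
    _ ≤ _ := mul_le_mul_of_nonneg_left hML hM0

/-- Three blocks: exact sieve for `tiny`, level two for `mid`, level zero for `top`. -/
theorem three_block (tiny mid top : Finset ℕ) (hPt : ∀ p ∈ tiny, p.Prime)
    (hPm : ∀ p ∈ mid, p.Prime) (hPo : ∀ p ∈ top, p.Prime) (hd1 : Disjoint mid top)
    (hd2 : Disjoint tiny (mid ∪ top)) (w : ℕ) (hw : 1024 ≤ w) (hwm : ∀ p ∈ mid, w ≤ p)
    (hσm : ∑ p ∈ mid, ((p : ℝ))⁻¹ ≤ 0.48) (hσt : ∑ p ∈ top, ((p : ℝ))⁻¹ ≤ 0.9387)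
    (m : ℕ)
    (hm : (2 : ℝ) ^ tiny.card * ((cntLe mid.card 2 : ℝ) * (5 + (top.card : ℝ)) +
      (mid.card.choose 3 : ℝ)) * ((tiny.card : ℝ) + 1) < 0.013 * m) (x0 : ℤ) :
    ∃ x ∈ Ico x0 (x0 + m), ∀ p ∈ tiny ∪ (mid ∪ top), ¬ ((p : ℤ) ∣ x) := by
  classical
  have S1 := SP.exact tiny hPt
  have S2 := SP.block mid hPm 2 even_two
  have S3 := SP.block top hPo 0 Even.zero
  have S23 := S2.union S3 hPm hPo hd1
  have hPmo : ∀ p ∈ mid ∪ top, p.Prime := by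
    intro p hp
    rcases Finset.mem_union.1 hp with h | h
    · exact hPm p h
    · exact hPo p h
  have S := S1.union S23 hPt hPmo hd2
  have hPall : ∀ p ∈ tiny ∪ (mid ∪ top), p.Prime := by
    intro p hp
    rcases Finset.mem_union.1 hp with h | h
    · exact hPt p h
    · exact hPmo p h
  refine S.exists_free hPall m ?_ x0
  have hV : 1 / ((tiny.card : ℝ) + 1) ≤ ∏ p ∈ tiny, (1 - 1 / (p : ℝ)) :=
    dens_ge_inv_card tiny fun p hp => (hPt p hp).two_le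
  set σm := ∑ p ∈ mid, ((p : ℝ))⁻¹ with hσmdef
  have hσm0 : 0 ≤ σm := Finset.sum_nonneg fun p _ => by positivity
  have hU : 0.519 ≤ trunc mid 2 := by
    have h1 := (trunc_bonferroni mid (fun p hp => (hPm p hp).one_lt.le) 2).1 even_two
    have h2 := dens_ge_exp mid w (by omega) hwm
    have h3 : (1024 : ℝ) ≤ (w : ℝ) := by exact_mod_cast hw
    have h4 : (w : ℝ) / (w - 1) * σm ≤ 0.481 := by
      have h5 : (w : ℝ) / (w - 1) ≤ 1.001 := by
        rw [div_le_iff₀ (by linarith)]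
        linarith
      calc (w : ℝ) / (w - 1) * σm ≤ 1.001 * 0.48 :=
            mul_le_mul h5 hσm hσm0 (by norm_num)
        _ ≤ 0.481 := by norm_num
    have h6 : 1 - (w : ℝ) / (w - 1) * σm ≤ Real.exp (-((w : ℝ) / (w - 1) * σm)) := by
      have := Real.add_one_le_exp (-((w : ℝ) / (w - 1) * σm))
      linarith
    linarith
  have hE : esym mid 3 ≤ 0.018432 := by
    have h1 := esym_le mid 3
    have h2 : σm ^ 3 ≤ 0.48 ^ 3 := pow_le_pow_left₀ hσm0 hσm 3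
    have h3 : ((3 : ℕ).factorial : ℝ) = 6 := by norm_num [Nat.factorial]
    rw [h3] at h1
    have h4 : σm ^ 3 / 6 ≤ 0.48 ^ 3 / 6 := by linarith
    norm_num at h4 ⊢
    linarith
  have hE1 : esym top 1 ≤ 0.9387 := by
    have h1 := esym_le top 1
    simp only [pow_one, Nat.factorial_one, Nat.cast_one, div_one] at h1
    linarith
  have hT0 : trunc top 0 = 1 := trunc_zero top
  have hc00 : (cntLe top.card 0 : ℝ) = 1 := by simp [cntLe]
  have hc01 : (top.card.choose (0 + 1) : ℝ) = (top.card : ℝ) := by simp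
  rw [hT0, hc00, hc01]
  exact three_block_numeric _ _ _ _ _ _ _ _ _ _ hV (by positivity) hU hE hE1 (by positivity) hm
    (by positivity)

/-- the reciprocal sums in the dyadic set-up: the middle range -/
lemma mid_sum_le (P : Finset ℕ) (hP : ∀ p ∈ P, p.Prime) (a c : ℕ) (ha : 2200 ≤ a)
    (hac : (c : ℝ) ≤ 1.605 * a) (hac' : a ≤ c) (hsub : ∀ p ∈ P, 2 ^ a < p ∧ p ≤ 2 ^ c) :
    ∑ p ∈ P, ((p : ℝ))⁻¹ ≤ 0.48 := by
  have ha0 : (2200 : ℝ) ≤ a := by exact_mod_cast ha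
  have h1 : ∑ p ∈ P, ((p : ℝ))⁻¹ ≤ ∑ p ∈ (Ioc (2 ^ a) (2 ^ c)).filter Nat.Prime, ((p : ℝ))⁻¹ := by
    refine Finset.sum_le_sum_of_subset_of_nonneg ?_ fun p _ _ => by positivity
    intro p hp
    exact Finset.mem_filter.2 ⟨Finset.mem_Ioc.2 (hsub p hp), hP p hp⟩
  have h2 := sum_inv_primes_dyadic a c (by omega) hac'
  have h3 : Real.log ((c : ℝ) / a) ≤ 0.475 := by
    have hc0 : (0 : ℝ) < c := by
      have : (a : ℝ) ≤ c := by exact_mod_cast hac'
      linarith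
    apply log_le_0475 (by positivity)
    rw [div_le_iff₀ (by linarith)]
    exact hac
  have h4 : 11 / (a : ℝ) ≤ 0.005 := by
    rw [div_le_iff₀ (by linarith)]
    linarith
  linarith

/-- the reciprocal sums in the dyadic set-up: the top range -/
lemma top_sum_le (P : Finset ℕ) (hP : ∀ p ∈ P, p.Prime) (c s : ℕ) (hc : 3700 ≤ c)
    (hce : (s : ℝ) + 7 ≤ 2.505 * c) (hce' : c ≤ s + 7) (hsub : ∀ p ∈ P, 2 ^ c < p)
    (hcard : P.card ≤ 2 ^ (s + 1)) :
    ∑ p ∈ P, ((p : ℝ))⁻¹ ≤ 0.9387 := by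
  classical
  have hc0 : (3700 : ℝ) ≤ c := by exact_mod_cast hc
  have hsplit : ∑ p ∈ P, ((p : ℝ))⁻¹ = ∑ p ∈ P.filter (fun p => p ≤ 2 ^ (s + 7)), ((p : ℝ))⁻¹ +
      ∑ p ∈ P.filter (fun p => ¬ p ≤ 2 ^ (s + 7)), ((p : ℝ))⁻¹ :=
    (Finset.sum_filter_add_sum_filter_not _ _ _).symm
  have h1 : ∑ p ∈ P.filter (fun p => p ≤ 2 ^ (s + 7)), ((p : ℝ))⁻¹ ≤
      ∑ p ∈ (Ioc (2 ^ c) (2 ^ (s + 7))).filter Nat.Prime, ((p : ℝ))⁻¹ := by
    refine Finset.sum_le_sum_of_subset_of_nonneg ?_ fun p _ _ => by positivity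
    intro p hp
    obtain ⟨hpt, hpe⟩ := Finset.mem_filter.1 hp
    exact Finset.mem_filter.2 ⟨Finset.mem_Ioc.2 ⟨hsub p hpt, hpe⟩, hP p hpt⟩
  have h2 := sum_inv_primes_dyadic c (s + 7) (by omega) hce'
  have h3 : Real.log (((s + 7 : ℕ) : ℝ) / c) ≤ 0.92 := by
    apply log_le_092 (by positivity)
    rw [div_le_iff₀ (by linarith)]
    push_cast
    exact hce
  have h4 : 11 / (c : ℝ) ≤ 0.003 := by
    rw [div_le_iff₀ (by linarith)]
    linarith
  have h5 : ∑ p ∈ P.filter (fun p => ¬ p ≤ 2 ^ (s + 7)), ((p : ℝ))⁻¹ ≤ 1 / 64 := by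
    have h6 : ∀ p ∈ P.filter (fun p => ¬ p ≤ 2 ^ (s + 7)),
        ((p : ℝ))⁻¹ ≤ ((2 : ℝ) ^ (s + 7))⁻¹ := by
      intro p hp
      have h7 : 2 ^ (s + 7) < p := by
        have := (Finset.mem_filter.1 hp).2
        omega
      have h8 : ((2 : ℝ) ^ (s + 7)) ≤ p := by exact_mod_cast h7.le
      exact inv_anti₀ (by positivity) h8
    have h9 := Finset.sum_le_card_nsmul _ _ _ h6
    have h10 : (P.filter (fun p => ¬ p ≤ 2 ^ (s + 7))).card ≤ 2 ^ (s + 1) :=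
      (Finset.card_le_card (Finset.filter_subset _ _)).trans hcard
    have h12 : (((P.filter (fun p => ¬ p ≤ 2 ^ (s + 7))).card : ℕ) : ℝ) ≤ (2 : ℝ) ^ (s + 1) := by
      exact_mod_cast h10
    rw [nsmul_eq_mul] at h9
    refine h9.trans ?_
    have h13 : (2 : ℝ) ^ (s + 7) = 2 ^ (s + 1) * 64 := by ring
    calc (((P.filter (fun p => ¬ p ≤ 2 ^ (s + 7))).card : ℕ) : ℝ) * ((2 : ℝ) ^ (s + 7))⁻¹
        ≤ (2 : ℝ) ^ (s + 1) * ((2 : ℝ) ^ (s + 7))⁻¹ :=
          mul_le_mul_of_nonneg_right h12 (by positivity)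
      _ = 1 / 64 := by
          rw [h13]
          field_simp
  rw [hsplit]
  linarith

end Vale.Agent.P013
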