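import Vale.Agent.P013.Rough

/-!
# Jacobsthal's function for moduli with few small prime factors: assembly
-/

namespace Vale.Agent.P013

open Finset

lemma rough_numeric (κ T n2 n3 n1 R rr M : ℝ) (hκ1 : 1 ≤ κ) (hT1 : 1 ≤ T) (hTκ : T ≤ κ ^ 2)
    (hn2 : n2 ≤ (T + 1) ^ 2) (hn3 : n3 ≤ T ^ 3) (hn1 : n1 ≤ κ ^ 5) (hn1' : 0 ≤ n1) (_hn2' : 0 ≤ n2)
    (hR : 0 < R) (hrr : 0 ≤ rr) (hM : 2000 * (rr + 1) * R * κ ^ 9 ≤ M) :
    R * (n2 * (5 + n1) + n3) * (rr + 1) < 0.013 * M := by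
  have h1 : n2 ≤ 4 * κ ^ 4 := by
    calc n2 ≤ (T + 1) ^ 2 := hn2
      _ ≤ (2 * κ ^ 2) ^ 2 := by
          apply pow_le_pow_left₀ (by positivity)
          nlinarith
      _ = 4 * κ ^ 4 := by ring
  have h2 : n3 ≤ κ ^ 6 := by
    calc n3 ≤ T ^ 3 := hn3
      _ ≤ (κ ^ 2) ^ 3 := pow_le_pow_left₀ (by positivity) hTκ 3
      _ = κ ^ 6 := by ring
  have h4 : κ ^ 6 ≤ κ ^ 9 := pow_le_pow_right₀ hκ1 (by norm_num)
  have h5 : (1 : ℝ) ≤ κ ^ 5 := one_le_pow₀ hκ1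
  have h6 : n2 * (5 + n1) ≤ 4 * κ ^ 4 * (6 * κ ^ 5) :=
    mul_le_mul h1 (by linarith) (by positivity) (by positivity)
  have h7 : 4 * κ ^ 4 * (6 * κ ^ 5) = 24 * κ ^ 9 := by ring
  have h8 : n2 * (5 + n1) + n3 ≤ 25 * κ ^ 9 := by linarith
  have hκ9 : 0 < κ ^ 9 := by positivity
  have hr0 : (0 : ℝ) < rr + 1 := by positivity
  calc R * (n2 * (5 + n1) + n3) * (rr + 1) ≤ R * (25 * κ ^ 9) * (rr + 1) := by
        apply mul_le_mul_of_nonneg_right _ hr0.le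
        exact mul_le_mul_of_nonneg_left h8 hR.le
    _ < R * (26 * κ ^ 9) * (rr + 1) := by
        apply mul_lt_mul_of_pos_right _ hr0
        apply mul_lt_mul_of_pos_left _ hR
        linarith
    _ = 0.013 * (2000 * (rr + 1) * R * κ ^ 9) := by ring
    _ ≤ 0.013 * M := mul_le_mul_of_nonneg_left hM (by norm_num)

/-- The main estimate for a set `P` of at least `2 ^ 10000` primes. -/
theorem rough_core (P : Finset ℕ) (hP : ∀ p ∈ P, p.Prime) (s : ℕ) (hs : 10000 ≤ s)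
    (hk1 : 2 ^ s ≤ P.card) (hk2 : P.card < 2 ^ (s + 1)) (κ : ℝ) (hκ : κ ^ 5 = P.card) (hκ0 : 0 ≤ κ)
    (m : ℕ)
    (hm : 2000 * (((P.filter fun p => p ^ 4 < P.card).card : ℝ) + 1) *
      2 ^ (P.filter fun p => p ^ 4 < P.card).card * κ ^ 9 ≤ m) (x0 : ℤ) :
    ∃ x ∈ Ico x0 (x0 + m), ∀ p ∈ P, ¬ ((p : ℤ) ∣ x) := by
  classical
  set k := P.card with hk
  obtain ⟨a, ha⟩ : ∃ a, a = s / 4 := ⟨_, rfl⟩
  obtain ⟨c, hc⟩ : ∃ c, c = 2 * s / 5 := ⟨_, rfl⟩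
  have ha1 : 4 * a ≤ s := by omega
  have ha2 : s ≤ 4 * a + 3 := by omega
  have hc1 : 5 * c ≤ 2 * s := by omega
  have hc2 : 2 * s ≤ 5 * c + 4 := by omega
  set tiny := P.filter fun p => p ^ 4 < k with htiny
  set mid := P.filter fun p => k ≤ p ^ 4 ∧ p ≤ 2 ^ c with hmid
  set top := P.filter fun p => k ≤ p ^ 4 ∧ 2 ^ c < p with htop
  have hPt : ∀ p ∈ tiny, p.Prime := fun p hp => hP p (Finset.mem_filter.1 hp).1
  have hPm : ∀ p ∈ mid, p.Prime := fun p hp => hP p (Finset.mem_filter.1 hp).1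
  have hPo : ∀ p ∈ top, p.Prime := fun p hp => hP p (Finset.mem_filter.1 hp).1
  have hdec : P = tiny ∪ (mid ∪ top) := by
    ext p
    simp only [htiny, hmid, htop, Finset.mem_union, Finset.mem_filter]
    constructor
    · intro hp
      rcases Nat.lt_or_ge (p ^ 4) k with h1 | h1
      · exact Or.inl ⟨hp, h1⟩
      · rcases Nat.lt_or_ge (2 ^ c) p with h2 | h2
        · exact Or.inr (Or.inr ⟨hp, h1, h2⟩)
        · exact Or.inr (Or.inl ⟨hp, h1, h2⟩)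
    · rintro (h | h | h) <;> exact h.1
  have hd1 : Disjoint mid top := by
    rw [Finset.disjoint_left]
    intro p h1 h2
    have := (Finset.mem_filter.1 h1).2.2
    have := (Finset.mem_filter.1 h2).2.2
    omega
  have hd2 : Disjoint tiny (mid ∪ top) := by
    rw [Finset.disjoint_left]
    intro p h1 h2
    have h3 := (Finset.mem_filter.1 h1).2
    rcases Finset.mem_union.1 h2 with h | h
    · have := (Finset.mem_filter.1 h).2.1; omega
    · have := (Finset.mem_filter.1 h).2.1; omega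
  have hsR : (10000 : ℝ) ≤ s := by exact_mod_cast hs
  have ha1R : (s : ℝ) ≤ 4 * a + 3 := by exact_mod_cast ha2
  have hc1R : 5 * (c : ℝ) ≤ 2 * s := by exact_mod_cast hc1
  have hc2R : 2 * (s : ℝ) ≤ 5 * c + 4 := by exact_mod_cast hc2
  have hmid_sub : ∀ p ∈ mid, 2 ^ a < p ∧ p ≤ 2 ^ c := by
    intro p hp
    obtain ⟨hpP, hp4, hpc⟩ := Finset.mem_filter.1 hp
    refine ⟨?_, hpc⟩
    apply two_pow_lt_of_prime (hP p hpP) (by omega)
    have h1 : (2 ^ a) ^ 4 ≤ p ^ 4 := by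
      calc (2 ^ a) ^ 4 = 2 ^ (4 * a) := by rw [← pow_mul, mul_comm]
        _ ≤ 2 ^ s := Nat.pow_le_pow_right (by norm_num) ha1
        _ ≤ k := hk1
        _ ≤ p ^ 4 := hp4
    exact (Nat.pow_le_pow_iff_left (by norm_num)).1 h1
  have hσm := mid_sum_le mid hPm a c (by omega) (by linarith) (by omega) hmid_sub
  have hσt := top_sum_le top hPo c s (by omega) (by linarith) (by omega)
    (fun p hp => (Finset.mem_filter.1 hp).2.2)
    ((Finset.card_le_card (Finset.filter_subset _ _)).trans hk2.le)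
  have hmid_card : mid.card ≤ 2 ^ c := by
    have hsub : mid ⊆ Ioc 0 (2 ^ c) := fun p hp =>
      Finset.mem_Ioc.2 ⟨(hPm p hp).pos, (hmid_sub p hp).2⟩
    have h1 := Finset.card_le_card hsub
    simpa using h1
  have htop_card : top.card ≤ k := Finset.card_le_card (Finset.filter_subset _ _)
  rw [hdec]
  have hw : 1024 ≤ 2 ^ a := by
    calc 1024 = 2 ^ 10 := by norm_num
      _ ≤ 2 ^ a := Nat.pow_le_pow_right (by norm_num) (by omega)
  refine three_block tiny mid top hPt hPm hPo hd1 hd2 (2 ^ a) hw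
    (fun p hp => (hmid_sub p hp).1.le) hσm hσt m ?_ x0
  have hκ1 : 1 ≤ κ := by
    by_contra hlt
    have hlt' : κ < 1 := not_le.1 hlt
    have h1 : κ ^ 5 < 1 := pow_lt_one₀ hκ0 hlt' (by norm_num)
    have h2 : (1 : ℝ) ≤ (k : ℝ) := by
      have : 1 ≤ k := le_trans Nat.one_le_two_pow hk1
      exact_mod_cast this
    linarith
  have hTκ : (2 : ℝ) ^ c ≤ κ ^ 2 := by
    have h1 : ((2 : ℝ) ^ c) ^ 5 ≤ (κ ^ 2) ^ 5 := by
      have h2 : (2 ^ c) ^ 5 ≤ k ^ 2 := by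
        calc (2 ^ c) ^ 5 = 2 ^ (5 * c) := by rw [← pow_mul, mul_comm]
          _ ≤ 2 ^ (2 * s) := Nat.pow_le_pow_right (by norm_num) hc1
          _ = (2 ^ s) ^ 2 := by rw [← pow_mul, mul_comm]
          _ ≤ k ^ 2 := Nat.pow_le_pow_left hk1 2
      have h3 : ((2 : ℝ) ^ c) ^ 5 ≤ (k : ℝ) ^ 2 := by exact_mod_cast h2
      calc ((2 : ℝ) ^ c) ^ 5 ≤ (k : ℝ) ^ 2 := h3
        _ = (κ ^ 2) ^ 5 := by rw [← hκ]; ring
    exact (pow_le_pow_iff_left₀ (by positivity) (by positivity) (by norm_num)).1 h1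
  have hn2 : (cntLe mid.card 2 : ℝ) ≤ ((2 : ℝ) ^ c + 1) ^ 2 := by
    have h1 : cntLe mid.card 2 ≤ (2 ^ c + 1) ^ 2 :=
      (cntLe_le_pow _ _).trans (Nat.pow_le_pow_left (by omega) 2)
    exact_mod_cast h1
  have hn3 : (mid.card.choose 3 : ℝ) ≤ ((2 : ℝ) ^ c) ^ 3 := by
    have h1 : mid.card.choose 3 ≤ (2 ^ c) ^ 3 :=
      (Nat.choose_le_pow _ _).trans (Nat.pow_le_pow_left hmid_card 3)
    exact_mod_cast h1
  have hn1 : (top.card : ℝ) ≤ κ ^ 5 := by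
    rw [hκ]; exact_mod_cast htop_card
  have hT1 : (1 : ℝ) ≤ (2 : ℝ) ^ c := one_le_pow₀ (by norm_num)
  exact rough_numeric κ ((2 : ℝ) ^ c) _ _ _ _ _ _ hκ1 hT1 hTκ hn2 hn3 hn1 (Nat.cast_nonneg _)
    (Nat.cast_nonneg _) (pow_pos two_pos _) (Nat.cast_nonneg _) hm

/-- auxiliary form with an abstract threshold `k0` -/
theorem few_small_primes_aux (k0 : ℕ) (hk0 : ∀ k, k0 ≤ k → 10000 ≤ Nat.log 2 k) (n : ℕ)
    (hn : 2 ≤ n) (m : ℕ)
    (hm : max 2000 (((k0 : ℝ) + 1) * 2 ^ k0 + 1) *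
      (((n.primeFactors.filter fun p => p ^ 4 < n.primeFactors.card).card : ℝ) + 1) *
      2 ^ (n.primeFactors.filter fun p => p ^ 4 < n.primeFactors.card).card *
      (n.primeFactors.card : ℝ) ^ ((9 : ℝ) / 5) ≤ m) (a : ℤ) :
    ∃ x ∈ Set.Ico a (a + m), IsCoprime x (n : ℤ) := by
  set P := n.primeFactors with hPdef
  have hP : ∀ p ∈ P, p.Prime := fun p hp => Nat.prime_of_mem_primeFactors hp
  set k := P.card with hk
  set r := (P.filter fun p => p ^ 4 < k).card with hr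
  have hk1 : 1 ≤ k := by
    rw [hk, Nat.succ_le_iff, Finset.card_pos, hPdef, Nat.nonempty_primeFactors]
    omega
  have hk1R : (1 : ℝ) ≤ k := by exact_mod_cast hk1
  have hfree : ∃ x ∈ Ico a (a + m), ∀ p ∈ P, ¬ ((p : ℤ) ∣ x) := by
    rcases Nat.lt_or_ge k k0 with hlt | hge
    · -- small `k`: the Legendre sieve
      apply exists_free_exact P hP m _ a
      have h1 : (1 : ℝ) ≤ (k : ℝ) ^ ((9 : ℝ) / 5) := Real.one_le_rpow hk1R (by norm_num)
      have h2 : (1 : ℝ) ≤ (2 : ℝ) ^ r := one_le_pow₀ (by norm_num)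
      have h3 : (1 : ℝ) ≤ (r : ℝ) + 1 := by
        have : (0 : ℝ) ≤ r := by positivity
        linarith
      have h4 : ((k0 : ℝ) + 1) * 2 ^ k0 + 1 ≤ m := by
        have hC0 : (0 : ℝ) ≤ ((k0 : ℝ) + 1) * 2 ^ k0 + 1 := by positivity
        calc ((k0 : ℝ) + 1) * 2 ^ k0 + 1
            = (((k0 : ℝ) + 1) * 2 ^ k0 + 1) * 1 * 1 * 1 := by ring
          _ ≤ max 2000 (((k0 : ℝ) + 1) * 2 ^ k0 + 1) * ((r : ℝ) + 1) * 2 ^ r *
              (k : ℝ) ^ ((9 : ℝ) / 5) := by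
              gcongr
              exact le_max_right _ _
          _ ≤ m := hm
      have h5 : ((k : ℝ) + 1) * 2 ^ k ≤ ((k0 : ℝ) + 1) * 2 ^ k0 := by
        have h6 : (k : ℝ) ≤ k0 := by exact_mod_cast hlt.le
        have h7 : (2 : ℝ) ^ k ≤ 2 ^ k0 := pow_le_pow_right₀ (by norm_num) hlt.le
        gcongr
      linarith
    · -- large `k`
      have hkne : k ≠ 0 := by omega
      have hs1 : 2 ^ (Nat.log 2 k) ≤ k := Nat.pow_log_le_self 2 hkne
      have hs2 : k < 2 ^ (Nat.log 2 k + 1) := Nat.lt_pow_succ_log_self (by norm_num) k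
      have hs3 : 10000 ≤ Nat.log 2 k := hk0 k hge
      have hk0R : (0 : ℝ) ≤ k := by positivity
      have hκ5 : ((k : ℝ) ^ ((1 : ℝ) / 5)) ^ 5 = k := by
        rw [← Real.rpow_natCast, ← Real.rpow_mul hk0R]
        norm_num
      have hκ9 : ((k : ℝ) ^ ((1 : ℝ) / 5)) ^ 9 = (k : ℝ) ^ ((9 : ℝ) / 5) := by
        rw [← Real.rpow_natCast, ← Real.rpow_mul hk0R]
        norm_num
      refine rough_core P hP (Nat.log 2 k) hs3 hs1 hs2 ((k : ℝ) ^ ((1 : ℝ) / 5)) hκ5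
        (by positivity) m ?_ a
      rw [hκ9]
      refine le_trans ?_ hm
      gcongr
      exact le_max_left _ _
  obtain ⟨x, hx, hfr⟩ := hfree
  refine ⟨x, ?_, isCoprime_of_free (by omega) hfr⟩
  have := Finset.mem_Ico.1 hx
  exact ⟨this.1, this.2⟩

lemma exists_threshold : ∃ k0 : ℕ, ∀ k, k0 ≤ k → 10000 ≤ Nat.log 2 k :=
  ⟨2 ^ 10000, fun _ hk => (Nat.le_log_iff_pow_le Nat.one_lt_two
    (Nat.ne_of_gt (lt_of_lt_of_le (Nat.pow_pos Nat.two_pos) hk))).2 hk⟩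

/-- **Few small prime factors.**  There is an absolute constant `C` such that, for `n ≥ 2` with
`k` distinct prime factors, `r` of which satisfy `p ^ 4 < k`, every
`m ≥ C (r + 1) 2 ^ r k ^ (9 / 5)` consecutive integers contain an integer coprime to `n`. -/
theorem few_small_primes : ∃ C : ℝ, 0 < C ∧ ∀ n : ℕ, 2 ≤ n → ∀ m : ℕ,
    C * (((n.primeFactors.filter fun p => p ^ 4 < n.primeFactors.card).card : ℝ) + 1) *
      2 ^ (n.primeFactors.filter fun p => p ^ 4 < n.primeFactors.card).card *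
      (n.primeFactors.card : ℝ) ^ ((9 : ℝ) / 5) ≤ m →
    ∀ a : ℤ, ∃ x ∈ Set.Ico a (a + m), IsCoprime x (n : ℤ) := by
  obtain ⟨k0, hk0⟩ := exists_threshold
  exact ⟨max 2000 (((k0 : ℝ) + 1) * 2 ^ k0 + 1), lt_of_lt_of_le (by norm_num) (le_max_left _ _),
    fun n hn m hm a => few_small_primes_aux k0 hk0 n hn m hm a⟩

end Vale.Agent.P013
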