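import Vale.Agent.P013.Esym
import Vale.Agent.P013.Mertens

/-!
# Auxiliary estimates
-/

namespace Vale.Agent.P013

open Finset

/-- crude lower bound for the sifting density -/
lemma dens_ge_inv_card (P : Finset ℕ) (hP : ∀ p ∈ P, 2 ≤ p) : 1 / ((P.card : ℝ) + 1) ≤ dens P := by
  classical
  induction P using Finset.induction_on_max with
  | empty => simp [dens]
  | insert a P ha ih =>
    have hP' : ∀ p ∈ P, 2 ≤ p := fun p hp => hP p (Finset.mem_insert_of_mem hp)
    have haP : a ∉ P := fun h => lt_irrefl a (ha a h)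
    have h1 := ih hP'
    have hsub : P ⊆ Finset.Ico 2 a := fun p hp => Finset.mem_Ico.2 ⟨hP' p hp, ha p hp⟩
    have hcard : P.card ≤ a - 2 := by
      have := Finset.card_le_card hsub
      simpa using this
    have ha2 : 2 ≤ a := hP a (Finset.mem_insert_self _ _)
    have hca : (P.card : ℝ) + 2 ≤ a := by
      have : P.card + 2 ≤ a := by omega
      exact_mod_cast this
    unfold dens at h1 ⊢
    rw [Finset.prod_insert haP, Finset.card_insert_of_notMem haP]
    push_cast
    set n : ℝ := (P.card : ℝ) with hn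
    have hn0 : 0 ≤ n := by positivity
    have h2 : 1 - 1 / (n + 2) ≤ 1 - 1 / (a : ℝ) := by
      have : 1 / (a : ℝ) ≤ 1 / (n + 2) := one_div_le_one_div_of_le (by positivity) hca
      linarith
    have h3 : 0 ≤ 1 - 1 / (n + 2) := by
      have : 1 / (n + 2) ≤ 1 := by
        rw [div_le_one (by positivity)]; linarith
      linarith
    calc 1 / (n + 1 + 1) = (1 - 1 / (n + 2)) * (1 / (n + 1)) := by field_simp; ring
      _ ≤ (1 - 1 / (a : ℝ)) * ∏ p ∈ P, (1 - 1 / (p : ℝ)) :=
          mul_le_mul h2 h1 (by positivity) (le_trans h3 h2)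

/-- crude constant in the oscillation bound -/
lemma Bsum_sub_le_seven (N n : ℕ) (hN : 1 ≤ N) (hn : N ≤ n) :
    Bsum n - Bsum N ≤ Real.log n - Real.log N + 7 := by
  have hn1 : 1 ≤ n := hN.trans hn
  have h := Bsum_sub_le N n hN hn1
  have hn' : (1 : ℝ) ≤ n := by exact_mod_cast hn1
  have hn0 : (0 : ℝ) < n := by linarith
  have h1 : Chebyshev.psi n / n ≤ Real.log 4 + 4 := by
    rw [div_le_iff₀ hn0]
    exact Chebyshev.psi_le_const_mul_self hn0.le
  have h2 : Real.log 4 ≤ 1.3863 := by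
    have : Real.log 4 = 2 * Real.log 2 := by
      rw [show (4 : ℝ) = 2 ^ 2 by norm_num, Real.log_pow]; norm_num
    rw [this]
    have := Real.log_two_lt_d9
    linarith
  have h3 : (1 + Real.log n / 2) / n ≤ 1.5 := by
    rw [div_le_iff₀ hn0]
    have : Real.log n ≤ n - 1 := Real.log_le_sub_one_of_pos hn0
    linarith
  linarith

/-- Mertens-type bound over a dyadic range, with a crude constant. -/
lemma sum_inv_primes_dyadic (c e : ℕ) (hc : 1 ≤ c) (hce : c ≤ e) :
    ∑ p ∈ (Ioc (2 ^ c) (2 ^ e)).filter Nat.Prime, ((p : ℝ))⁻¹ ≤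
      Real.log ((e : ℝ) / c) + 11 / c := by
  have hN : 2 ≤ 2 ^ c := by
    calc 2 = 2 ^ 1 := by norm_num
      _ ≤ 2 ^ c := Nat.pow_le_pow_right (by norm_num) hc
  have hz : 2 ^ c ≤ 2 ^ e := Nat.pow_le_pow_right (by norm_num) hce
  have h := sum_inv_primes_le (2 ^ c) hN 7
    (fun n hn => Bsum_sub_le_seven _ n (by omega) hn) (2 ^ e) hz
  refine h.trans ?_
  have hc0 : (0 : ℝ) < c := by exact_mod_cast hc
  have he0 : (0 : ℝ) < e := by exact_mod_cast hc.trans hce
  have hl2 : 0 < Real.log 2 := Real.log_pos (by norm_num)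
  have e1 : Real.log ((2 ^ c : ℕ) : ℝ) = c * Real.log 2 := by
    push_cast; rw [Real.log_pow]
  have e2 : Real.log ((2 ^ e : ℕ) : ℝ) = e * Real.log 2 := by
    push_cast; rw [Real.log_pow]
  rw [e1, e2, Real.log_mul he0.ne' hl2.ne', Real.log_mul hc0.ne' hl2.ne',
    Real.log_div he0.ne' hc0.ne']
  have h3 : 7 / (c * Real.log 2) ≤ 11 / c := by
    rw [div_le_div_iff₀ (by positivity) hc0]
    have := Real.log_two_gt_d9
    nlinarith
  linarith

/-- converting freeness from the prime factors into coprimality -/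
lemma isCoprime_of_free {n : ℕ} (hn : n ≠ 0) {x : ℤ}
    (h : ∀ p ∈ n.primeFactors, ¬ ((p : ℤ) ∣ x)) : IsCoprime x (n : ℤ) := by
  rw [Int.isCoprime_iff_gcd_eq_one]
  by_contra hne
  obtain ⟨p, hp, hpd⟩ := Nat.exists_prime_and_dvd hne
  have h1 : p ∣ x.natAbs := by
    have := Nat.dvd_trans hpd (Int.gcd_dvd_natAbs_left x n)
    exact this
  have h2 : p ∣ n := by
    have := Nat.dvd_trans hpd (Int.gcd_dvd_natAbs_right x n)
    simpa using this
  exact h p (Nat.mem_primeFactors.2 ⟨hp, h2, hn⟩) (Int.natCast_dvd.2 h1)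

/-- The Legendre sieve bound `j(n) ≤ (k+1) 2^k + 1`. -/
lemma exists_free_exact (P : Finset ℕ) (hP : ∀ p ∈ P, p.Prime) (m : ℕ)
    (hm : ((P.card : ℝ) + 1) * 2 ^ P.card < m) (a : ℤ) :
    ∃ x ∈ Ico a (a + m), ∀ p ∈ P, ¬ ((p : ℤ) ∣ x) := by
  refine (SP.exact P hP).exists_free hP m ?_ a
  have h1 := dens_ge_inv_card P fun p hp => (hP p hp).two_le
  unfold dens at h1
  have hpos : (0 : ℝ) < (P.card : ℝ) + 1 := by positivity
  have hm0 : (0 : ℝ) ≤ m := by positivity
  calc (2 : ℝ) ^ P.card = (((P.card : ℝ) + 1) * 2 ^ P.card) * (1 / ((P.card : ℝ) + 1)) := by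
        field_simp
    _ < m * (1 / ((P.card : ℝ) + 1)) := by
        apply mul_lt_mul_of_pos_right hm; positivity
    _ ≤ m * ∏ p ∈ P, (1 - 1 / (p : ℝ)) := mul_le_mul_of_nonneg_left h1 hm0

end Vale.Agent.P013
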